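import Crest.Agent.X212.Tor42.Main_Mg
import Crest.Agent.X212.Srf12.Sph
import Crest.Agent.X212.Glb47.Main_Mg
import Crest.Agent.X212.Prd34.Main
import Crest.Agent.X212.Geo46.Main
import Crest.Agent.X212.Thk1.Disc

/-!
# X212 / layer T closed (helper12): PL handle straightening without hypotheses
-/

namespace Crest.Agent.X212.Srf12

theorem nonsep : Tor42.Nonsep := fun _ h => h.nonsep

theorem bdsum : Tor42.Bdsum := fun _ _ _ _ _ _ h hd l₁ l₂ => h.bdsum hd l₁.circ l₂.circ

theorem ltc : Tw9.LTc := Geo46.ltc Thk1.discStmt Dsc37.desc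

/-- **the loop theorem** -/
theorem lt : Lev33.LTStmt := Geo46.lt Thk1.discStmt Dsc37.desc

/-- **Dehn's lemma** -/
theorem dehn : Prd34.DehnStmt := Deh83.dehn ltc Anb49.anbStmt

theorem rung0 : Prd34.Rung0Stmt :=
  Tor42.rung0 Lvf3.lev (Lev33.incStmt lt sphStmt) annRec nonsep bdsum

/-- **PL handle straightening in dimension three** -/
theorem plhs (K : Finset (Fin 3)) : Prd34.PLHS K :=
  Prd34.plhs Thk1.flatStmt dehn Thk1.thickStmt (Lev33.rung1Stmt lt sphStmt annRec) rung0
    (Lev33.annStmt lt sphStmt annRec) K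

theorem tame : Skel83.Tame := Glb47.tame plhs

theorem smooth : Skel83.Smooth := Glb47.smooth plhs

theorem goal (C : Skel83.Core) : Skel83.Goal := Glb47.goal plhs C

end Crest.Agent.X212.Srf12
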