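import Crest.Agent.X212.Srf12.Loc
import Crest.Agent.R096.Gst1_835
import Crest.Agent.R096.Xp1_537

-- ▼ part X212/Srf12/Tri
section

/-!
# X212 / SURF (helper12): the complex of an arrangement on a compact polyhedron (any dimension)
-/

set_option autoImplicit false

open Set Metric Topology Module Filter

namespace Crest.Agent.X212.Srf12

open Crest.Agent.R096 Crest.Agent.R096.Ce_537 Crest.Agent.R096.Msh_715 Crest.Agent.R096.Xp_537

universe u

variable {E : Type u} [NormedAddCommGroup E] [NormedSpace ℝ E]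

/-- an inequality `h.1 x ≤ h.2` -/
abbrev Ineq (E : Type*) [NormedAddCommGroup E] [NormedSpace ℝ E] := (E →L[ℝ] ℝ) × ℝ

namespace Arr

variable (A : Finset (Ineq E))

/-- closed under change of sign -/
def Sym : Prop := ∀ h ∈ A, ((-h.1, -h.2) : Ineq E) ∈ A

open Classical in
/-- the inequalities valid at `x` -/
noncomputable def Hx (x : E) : Finset (Ineq E) := A.filter fun h => h.1 x ≤ h.2

/-- closed cell -/
def cc (x : E) : Set E := {y | ∀ h ∈ A, h.1 x ≤ h.2 → h.1 y ≤ h.2}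

/-- open cell -/
def oc (x : E) : Set E := {y | ∀ h ∈ A, h.1 x ≤ h.2 ↔ h.1 y ≤ h.2}

/-- directions of the cell -/
abbrev dir (x : E) : Submodule ℝ E := dirP A x

variable {A}

theorem mem_Hx {x : E} {h : Ineq E} : h ∈ Hx A x ↔ h ∈ A ∧ h.1 x ≤ h.2 := by
  simp [Hx]

theorem cc_eq_P (x : E) : cc A x = P (Hx A x) := by
  ext y; simp [cc, P, mem_Hx]

theorem self_cc (x : E) : x ∈ cc A x := fun _ _ h => h

theorem self_oc (x : E) : x ∈ oc A x := fun _ _ => Iff.rfl

theorem oc_sub (x : E) : oc A x ⊆ cc A x := fun _ hy h hh => (hy h hh).1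

theorem cc_sub {x y : E} (hy : y ∈ cc A x) : cc A y ⊆ cc A x :=
  fun _ hz h hh hx => hz h hh (hy h hh hx)

theorem mem_oc {x y : E} (h1 : y ∈ cc A x) (h2 : x ∈ cc A y) : y ∈ oc A x :=
  fun h hh => ⟨h1 h hh, h2 h hh⟩

theorem oc_symm {x y : E} (h : y ∈ oc A x) : x ∈ oc A y := fun g hg => (h g hg).symm

theorem cc_eq {x y : E} (h : y ∈ oc A x) : cc A y = cc A x :=
  (cc_sub (oc_sub x h)).antisymm (cc_sub (oc_sub y (oc_symm h)))

theorem oc_of_cc_eq {x y : E} (h : cc A y = cc A x) : y ∈ oc A x :=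
  mem_oc (h ▸ self_cc y) (h ▸ self_cc x)

theorem oc_eq {x y : E} (h : y ∈ oc A x) : oc A y = oc A x := by
  ext z
  exact ⟨fun hz g hg => (h g hg).trans (hz g hg), fun hz g hg => (h g hg).symm.trans (hz g hg)⟩

theorem convex_cc (x : E) : Convex ℝ (cc A x) := by rw [cc_eq_P]; exact convex_P _

theorem isClosed_cc (x : E) : IsClosed (cc A x) := by rw [cc_eq_P]; exact isClosed_P _

theorem act (hA : Sym A) {x y : E} (hy : y ∈ cc A x) {h : Ineq E} (hh : h ∈ A)
    (e : h.1 x = h.2) : h.1 y = h.2 := by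
  have h1 := hy h hh e.le
  have h2 := hy _ (hA h hh) (by simp [e])
  simp only [neg_apply, neg_le_neg_iff] at h2
  exact le_antisymm h1 h2

theorem act_oc (hA : Sym A) {x y : E} (hy : y ∈ oc A x) {h : Ineq E} (hh : h ∈ A) :
    h.1 y = h.2 ↔ h.1 x = h.2 :=
  ⟨act hA (oc_sub y (oc_symm hy)) hh, act hA (oc_sub x hy) hh⟩

theorem dir_Hx (x : E) : dirP (Hx A x) x = dir A x := by
  ext v
  simp only [mem_dirP, mem_Hx]
  exact ⟨fun h g hg e => h g ⟨hg, e.le⟩ e, fun h g hg e => h g hg.1 e⟩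

theorem fc_eq (hA : Sym A) (x : E) : fc (Hx A x) x = cc A x := by
  ext y
  constructor
  · intro hy h hh hx; exact (hy h (mem_Hx.2 ⟨hh, hx⟩)).1
  · intro hy h hh
    rw [mem_Hx] at hh
    exact ⟨hy h hh.1 hh.2, act hA hy hh.1⟩

theorem fo_eq (hA : Sym A) (x : E) : fo (Hx A x) x = oc A x := by
  ext y
  constructor
  · intro hy h hh
    refine ⟨fun hx => (hy h (mem_Hx.2 ⟨hh, hx⟩)).1, fun h1 => ?_⟩
    by_contra h2
    push Not at h2
    have h3 := hy _ (mem_Hx.2 ⟨hA h hh, by simpa using h2.le⟩)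
    simp only [neg_apply, neg_le_neg_iff, neg_inj] at h3
    exact h2.ne' (h3.2.1 (le_antisymm h1 h3.1))
  · intro hy h hh
    rw [mem_Hx] at hh
    exact ⟨(hy h hh.1).1 hh.2, act_oc hA hy hh.1⟩

theorem isBall_cc [FiniteDimensional ℝ E] (hA : Sym A) {x : E}
    (hb : Bornology.IsBounded (cc A x)) :
    IsBall (finrank ℝ (dir A x)) (cc A x) (cc A x \ oc A x) := by
  have h := isBall_fc (Hx A x) (x := x) (cc_eq_P x ▸ self_cc x) (by rwa [fc_eq hA])
  rwa [fc_eq hA, fo_eq hA, dir_Hx] at h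

theorem sub_mem_dir (hA : Sym A) {x y : E} (hy : y ∈ cc A x) : y - x ∈ dir A x :=
  fun h hh e => by rw [map_sub, act hA hy hh e, e, sub_self]

theorem dir_eq (hA : Sym A) {x y : E} (hy : y ∈ oc A x) : dir A y = dir A x := by
  ext v
  exact ⟨fun hv h hh e => hv h hh ((act_oc hA hy hh).2 e),
    fun hv h hh e => hv h hh ((act_oc hA hy hh).1 e)⟩

theorem dir_lt (hA : Sym A) {x y : E} (hy : y ∈ cc A x) (hn : y ∉ oc A x) :
    dir A y < dir A x := by
  refine lt_of_le_of_ne (fun v hv h hh e => hv h hh (act hA hy hh e)) fun e => hn ?_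
  refine mem_oc hy fun h hh h1 => ?_
  by_contra h2
  push Not at h2
  have h3 := hy _ (hA h hh) (by simpa using h2.le)
  simp only [neg_apply, neg_le_neg_iff] at h3
  have h4 : y - x ∈ dir A y := e ▸ sub_mem_dir hA hy
  have h5 := h4 h hh (le_antisymm h1 h3)
  rw [map_sub] at h5
  linarith

theorem move_oc (hA : Sym A) {x y : E} (hy : y ∈ cc A x) {s : ℝ} (h0 : 0 < s) (h1 : s ≤ 1) :
    (1 - s) • y + s • x ∈ oc A x := by
  refine mem_oc (convex_cc x hy (self_cc x) (by linarith) h0.le (by ring)) fun h hh h2 => ?_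
  by_contra h3
  push Not at h3
  have h4 := hy _ (hA h hh) (by simpa using h3.le)
  simp only [neg_apply, neg_le_neg_iff, map_add, map_smul,
    smul_eq_mul] at h4 h2
  nlinarith

theorem closure_oc (hA : Sym A) (x : E) : closure (oc A x) = cc A x := by
  refine (closure_minimal (oc_sub x) (isClosed_cc x)).antisymm fun y hy => ?_
  have h1 : Tendsto (fun s : ℝ => (1 - s) • y + s • x) (𝓝[>] 0) (𝓝 y) := by
    have : Tendsto (fun s : ℝ => (1 - s) • y + s • x) (𝓝 0) (𝓝 ((1 - (0 : ℝ)) • y + (0 : ℝ) • x)) :=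
      Continuous.tendsto (by fun_prop) 0
    simpa using this.mono_left nhdsWithin_le_nhds
  refine mem_closure_of_tendsto h1 ?_
  filter_upwards [Ioo_mem_nhdsGT (zero_lt_one' ℝ)] with s hs
  exact move_oc hA hy hs.1 hs.2.le

theorem exists_exit [FiniteDimensional ℝ E] (hA : Sym A) {x v : E}
    (hb : Bornology.IsBounded (cc A x)) (hv : v ∈ dir A x) (h0 : v ≠ 0) :
    ∃ t : ℝ, 0 < t ∧ x + t • v ∈ cc A x ∧ x + t • v ∉ oc A x ∧
      ∀ s : ℝ, x + s • v ∈ cc A x → s ≤ t := by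
  have small : ∀ y ∈ oc A x, ∃ s : ℝ, 0 < s ∧ y + s • v ∈ cc A x := by
    intro y hy
    have h1 := mem_P_small (H := Hx A x) (y := y) (v := v) (cc_eq_P x ▸ oc_sub x hy)
      fun h hh e => (hv h (mem_Hx.1 hh).1 ((act_oc hA hy (mem_Hx.1 hh).1).1 e)).le
    obtain ⟨s, hs, hs0⟩ := (h1.and self_mem_nhdsWithin).exists
    exact ⟨s, hs0, by rw [cc_eq_P]; exact hs⟩
  have hc : IsClosed {s : ℝ | x + s • v ∈ cc A x} := (isClosed_cc x).preimage (by fun_prop)
  have hbd : BddAbove {s : ℝ | x + s • v ∈ cc A x} := by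
    obtain ⟨R, hR⟩ := hb.subset_closedBall x
    refine ⟨R / ‖v‖, fun s hs => ?_⟩
    have h1 := hR hs
    rw [mem_closedBall, dist_eq_norm, add_sub_cancel_left, norm_smul, Real.norm_eq_abs] at h1
    rw [le_div_iff₀ (norm_pos_iff.2 h0)]
    exact (mul_le_mul_of_nonneg_right (le_abs_self s) (norm_nonneg v)).trans h1
  obtain ⟨s0, hs0, hs0'⟩ := small x (self_oc x)
  have hmem := hc.csSup_mem ⟨s0, hs0'⟩ hbd
  refine ⟨_, hs0.trans_le (le_csSup hbd hs0'), hmem, fun ho => ?_, fun s hs => le_csSup hbd hs⟩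
  obtain ⟨s, hs, hs'⟩ := small _ ho
  rw [add_assoc, ← add_smul] at hs'
  have := le_csSup hbd hs'
  linarith

/-- the cells that meet `S` -/
def Cell (A : Finset (Ineq E)) (S : Set E) : Type _ := {c : Set E // ∃ x ∈ S, c = cc A x}

instance (S : Set E) : PartialOrder (Cell A S) :=
  inferInstanceAs (PartialOrder {c : Set E // ∃ x ∈ S, c = cc A x})

instance (S : Set E) : Finite (Cell A S) := by
  have : {c : Set E | ∃ x ∈ S, c = cc A x}.Finite := by
    refine ((A.powerset.finite_toSet).image P).subset ?_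
    rintro _ ⟨x, -, rfl⟩
    exact ⟨Hx A x, Finset.mem_coe.2 (Finset.mem_powerset.2 fun h hh => (mem_Hx.1 hh).1),
      (cc_eq_P x).symm⟩
  exact this

variable {S : Set E}

/-- a point of the open cell -/
noncomputable def pt (c : Cell A S) : E := c.2.choose

theorem pt_mem (c : Cell A S) : pt c ∈ S := c.2.choose_spec.1

theorem val_eq (c : Cell A S) : c.1 = cc A (pt c) := c.2.choose_spec.2

/-- the cell of a point -/
def mk (A : Finset (Ineq E)) {x : E} (hx : x ∈ S) : Cell A S := ⟨cc A x, x, hx, rfl⟩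

theorem le_iff {c d : Cell A S} : c ≤ d ↔ c.1 ⊆ d.1 := Iff.rfl

theorem lt_iff {c d : Cell A S} : c < d ↔ pt c ∈ cc A (pt d) ∧ pt c ∉ oc A (pt d) := by
  rw [lt_iff_le_and_ne, le_iff, val_eq, val_eq]
  constructor
  · rintro ⟨h1, h2⟩
    exact ⟨h1 (self_cc _), fun h => h2 (Subtype.ext (by rw [val_eq, val_eq, cc_eq h]))⟩
  · rintro ⟨h1, h2⟩
    exact ⟨cc_sub h1, fun e => h2 (e ▸ self_oc _)⟩

/-- `S` is a union of closed cells -/
def Det (A : Finset (Ineq E)) (S : Set E) : Prop := ∀ x ∈ S, cc A x ⊆ S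

theorem pt_mk {x : E} (hx : x ∈ S) : pt (mk A hx) ∈ oc A x :=
  oc_of_cc_eq (val_eq (mk A hx)).symm

theorem mk_lt {x : E} (hx : x ∈ S) {d : Cell A S} (h1 : x ∈ cc A (pt d))
    (h2 : x ∉ oc A (pt d)) : mk A hx < d := by
  rw [lt_iff]
  exact ⟨cc_sub h1 (oc_sub x (pt_mk hx)), fun h => h2 (by
    rw [← oc_eq h]; exact oc_symm (pt_mk hx))⟩

theorem bd_eq (hS : Det A S) (c : Cell A S) :
    cc A (pt c) \ oc A (pt c) = ⋃ d ∈ {d : Cell A S | d < c}, d.1 := by
  ext y
  simp only [mem_iUnion, mem_ofPred_eq, exists_prop]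
  constructor
  · rintro ⟨h1, h2⟩
    exact ⟨mk A (hS _ (pt_mem c) h1), mk_lt _ h1 h2, self_cc y⟩
  · rintro ⟨d, hd, hy⟩
    rw [val_eq] at hy
    rw [lt_iff] at hd
    refine ⟨cc_sub hd.1 hy, fun h => hd.2 (mem_oc hd.1 ?_)⟩
    exact cc_sub hy (oc_sub y (oc_symm h))

theorem opn_iff' (hS : Det A S) (c : Cell A S) (y : E) :
    Opn (fun c : Cell A S => c.1) c y ↔ y ∈ oc A (pt c) := by
  rw [opn_iff, ← bd_eq hS, val_eq]
  exact ⟨fun h => by_contra fun h' => h.2 ⟨h.1, h'⟩, fun h => ⟨oc_sub _ h, fun h' => h'.2 h⟩⟩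

/-- dimension -/
noncomputable def dm (c : Cell A S) : ℕ := finrank ℝ (dir A (pt c))

variable [FiniteDimensional ℝ E]

theorem cplx (hA : Sym A) (hS : Det A S) (hb : Bornology.IsBounded S) :
    Cplx S (Cell A S) dm (fun c => c.1) where
  isBall c := by
    rw [← bd_eq hS, val_eq]
    exact isBall_cc hA (hb.subset (hS _ (pt_mem c)))
  mono i j h := Submodule.finrank_lt_finrank_of_lt (dir_lt hA (lt_iff.1 h).1 (lt_iff.1 h).2)
  disj i j x hi hj := by
    rw [opn_iff' hS] at hi hj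
    exact Subtype.ext (by rw [val_eq, val_eq, ← cc_eq hi, cc_eq hj])
  sub c := by rw [val_eq]; exact hS _ (pt_mem c)
  cover x hx := ⟨mk A hx, self_cc x⟩
  lf x _ := ⟨1, one_pos, toFinite _⟩

omit [FiniteDimensional ℝ E] in
theorem mem_bd (hS : Det A S) {p q : Cell A S} (h : p < q) {y : E} (hy : y ∈ p.1) :
    y ∈ cc A (pt q) \ oc A (pt q) := by
  rw [bd_eq hS]; exact mem_biUnion (show p ∈ {d : Cell A S | d < q} from h) hy

omit [FiniteDimensional ℝ E] in
theorem rad_aux (hA : Sym A) {x y y' : E} {w w' : ℝ} (hy : y ∉ oc A x) (hy' : y' ∈ cc A x)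
    (hww : w < w') (hw' : w' < 1)
    (e : (1 - w) • y + w • x = (1 - w') • y' + w' • x) : False := by
  have h1 : 0 < 1 - w := by linarith
  apply hy
  have h2 : y = (1 - (w' - w) / (1 - w)) • y' + ((w' - w) / (1 - w)) • x := by
    have h3 : (1 - w) • y = (1 - w') • y' + (w' - w) • x := by
      rw [sub_smul w' w, ← add_sub_assoc, ← e, add_sub_cancel_right]
    have h4 : y = (1 - w)⁻¹ • ((1 - w) • y) := by rw [smul_smul, inv_mul_cancel₀ h1.ne', one_smul]
    rw [h4, h3, smul_add, smul_smul, smul_smul]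
    congr 2
    · field_simp; ring
    · field_simp
  rw [h2]
  exact move_oc hA hy' (div_pos (by linarith) h1) ((div_le_one h1).2 (by linarith))

/-- the convex cell complex -/
noncomputable def ccx (hA : Sym A) (hS : Det A S) (hb : Bornology.IsBounded S) :
    CC S (Cell A S) where
  cell c := c.1
  b := pt
  dim := dm
  conv c := by rw [val_eq]; exact convex_cc _
  cpt c := (cplx hA hS hb).isCompact c
  bmem c := by rw [val_eq]; exact self_cc _
  mono h := h.le
  dim_lt h := (cplx hA hS hb).mono _ _ h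
  b_notMem h hq := (mem_bd hS h hq).2 (self_oc _)
  rad q y hy := by
    by_cases e : y = pt q
    · exact Or.inl e
    · right
      rw [val_eq] at hy
      obtain ⟨t, t0, h1, h2, h3⟩ := exists_exit hA (hb.subset (hS _ (pt_mem q)))
        (sub_mem_dir hA hy) (sub_ne_zero.2 e)
      have t1 : 1 ≤ t := h3 1 (by simpa using hy)
      refine ⟨mk A (hS _ (pt_mem q) h1), mk_lt _ h1 h2, _, self_cc _, 1 - t⁻¹,
        ⟨sub_nonneg.2 (inv_le_one_of_one_le₀ t1), by have := inv_pos.2 t0; linarith⟩, ?_⟩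
      rw [sub_sub_cancel, smul_add, smul_smul, inv_mul_cancel₀ t0.ne', one_smul, sub_smul,
        one_smul]
      abel
  rad_uniq := by
    intro q p p' y y' w w' h h' hy hy' hw hw' e
    have b1 := mem_bd hS h hy
    have b2 := mem_bd hS h' hy'
    have hww : w = w' := by
      rcases lt_trichotomy w w' with l | l | l
      · exact (rad_aux hA b1.2 b2.1 l hw'.2 e).elim
      · exact l
      · exact (rad_aux hA b2.2 b1.1 l hw.2 e.symm).elim
    subst hww
    refine ⟨?_, rfl⟩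
    have h1 : (1 - w) ≠ 0 := by have := hw.2; linarith
    exact smul_right_injective E h1 (add_right_cancel e)
  disj h1 h2 h3 h4 := (cplx hA hS hb).disj _ _ _ ⟨h1, h2⟩ ⟨h3, h4⟩
  sub := (cplx hA hS hb).sub
  cover := (cplx hA hS hb).cover
  lf := (cplx hA hS hb).lf

theorem hull (hA : Sym A) (hS : Det A S) (hb : Bornology.IsBounded S) (c : Cell A S) :
    c.1 = convexHull ℝ (pt '' {v : Cell A S | v ≤ c ∧ dm v = 0}) := by
  induction hd : dm c using Nat.strong_induction_on generalizing c with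
  | _ n ih =>
    refine Subset.antisymm ?_ (convexHull_min ?_ ((ccx hA hS hb).conv c))
    · have low : ∀ y ∈ cc A (pt c), y ∉ oc A (pt c) →
          y ∈ convexHull ℝ (pt '' {v : Cell A S | v ≤ c ∧ dm v = 0}) := by
        intro y h1 h2
        have h3 := mk_lt (hS _ (pt_mem c) h1) h1 h2
        have h4 := ih _ (hd ▸ (cplx hA hS hb).mono _ _ h3) _ rfl
        have h5 : y ∈ (mk A (hS _ (pt_mem c) h1)).1 := self_cc y
        rw [h4] at h5
        refine convexHull_mono (image_mono ?_) h5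
        exact fun v hv => ⟨hv.1.trans h3.le, hv.2⟩
      intro y hy
      rw [val_eq] at hy
      by_cases ho : y ∈ oc A (pt c)
      · by_cases h0 : dm c = 0
        · have h1 : dir A (pt c) = ⊥ := Submodule.finrank_eq_zero.1 h0
          have h2 := sub_mem_dir hA hy
          rw [h1, Submodule.mem_bot, sub_eq_zero] at h2
          exact subset_convexHull _ _ ⟨c, ⟨le_rfl, h0⟩, h2.symm⟩
        · have h1 : dir A y ≠ ⊥ := by
            rw [dir_eq hA ho]; exact fun e => h0 (Submodule.finrank_eq_zero.2 e)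
          obtain ⟨v, hv, v0⟩ := Submodule.exists_mem_ne_zero_of_ne_bot h1
          have hb' : Bornology.IsBounded (cc A y) := hb.subset (hS _ (hS _ (pt_mem c) hy))
          obtain ⟨t, t0, a1, a2, -⟩ := exists_exit hA hb' hv v0
          obtain ⟨s, s0, b1, b2, -⟩ := exists_exit hA hb' (neg_mem hv) (neg_ne_zero.2 v0)
          rw [cc_eq ho] at a1 b1
          rw [oc_eq ho] at a2 b2
          have h2 := convex_convexHull ℝ _ (low _ a1 a2) (low _ b1 b2)
            (a := s / (s + t)) (b := t / (s + t)) (by positivity) (by positivity)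
            (by field_simp)
          convert h2 using 1
          have h3 : s + t ≠ 0 := by positivity
          rw [smul_add, smul_add, smul_smul, smul_smul, smul_neg, add_add_add_comm, ← add_smul,
            ← sub_eq_add_neg, ← sub_smul]
          have e1 : s / (s + t) + t / (s + t) = 1 := by field_simp
          have e2 : s / (s + t) * t - t / (s + t) * s = 0 := by field_simp; ring
          rw [e1, e2, one_smul, zero_smul, add_zero]
      · exact low y hy ho
    · rintro _ ⟨v, hv, rfl⟩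
      exact hv.1 ((ccx hA hS hb).bmem v)

end Arr

variable [FiniteDimensional ℝ E]

theorem hpt (v : E) : ∃ H : Finset (Ineq E), P H = {v} := by
  classical
  let b := Module.finBasis ℝ E
  let c : Fin (finrank ℝ E) → E →L[ℝ] ℝ := fun j => LinearMap.toContinuousLinearMap (b.coord j)
  refine ⟨(Finset.univ.image fun j => (c j, c j v)) ∪
    (Finset.univ.image fun j => (-c j, -c j v)), ?_⟩
  ext x
  rw [mem_singleton_iff]
  constructor
  · intro hx
    refine b.ext_elem fun j => ?_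
    have h1 := hx (c j, c j v) (Finset.mem_union_left _
      (Finset.mem_image.2 ⟨j, Finset.mem_univ _, rfl⟩))
    have h2 := hx (-c j, -c j v) (Finset.mem_union_right _
      (Finset.mem_image.2 ⟨j, Finset.mem_univ _, rfl⟩))
    simp only [neg_apply, neg_le_neg_iff] at h1 h2
    exact le_antisymm h1 h2
  · rintro rfl h hh
    rcases Finset.mem_union.1 hh with hh | hh <;>
    · obtain ⟨j, -, rfl⟩ := Finset.mem_image.1 hh
      exact le_refl _

theorem vp_hrep {C : Set E} (h : Pl.VP C) : ∃ H : Finset (Ineq E), P H = C := by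
  obtain ⟨s, hs, rfl⟩ := h
  exact Gst_835.hrep hpt hs

theorem Poly.det {S : Set E} (h : Poly S) :
    ∃ H : Finset (Ineq E), ∀ A, H ⊆ A → Arr.Det A S := by
  classical
  obtain ⟨𝒞, hf, hv, rfl⟩ := h
  choose! H hH using fun C (hC : C ∈ 𝒞) => vp_hrep (hv C hC)
  refine ⟨hf.toFinset.biUnion H, fun A hA x ⟨C, hC, hx⟩ y hy => ⟨C, hC, ?_⟩⟩
  rw [← hH C hC] at hx ⊢
  exact fun h hh => hy h (hA (Finset.mem_biUnion.2 ⟨C, hf.mem_toFinset.2 hC, hh⟩)) (hx h hh)

omit [FiniteDimensional ℝ E] in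
theorem Poly.isCompact {S : Set E} (h : Poly S) : IsCompact S := by
  obtain ⟨𝒞, hf, hv, rfl⟩ := h
  exact hf.isCompact_sUnion fun C hC => (hv C hC).isCompact

/-- a finite complex of convex polytopes on `S` -/
structure Tri {S : Set E} {Q : Type*} [PartialOrder Q] (C : CC S Q) : Prop where
  cx : Cplx S Q C.dim C.cell
  hull : ∀ q, C.cell q = convexHull ℝ (C.b '' {v | v ≤ q ∧ C.dim v = 0})
  cvx : ∀ q, Convex ℝ {x | Opn C.cell q x}

omit [FiniteDimensional ℝ E] in
theorem Arr.convex_oc {A : Finset (Ineq E)} (hA : Arr.Sym A) (x : E) : Convex ℝ (Arr.oc A x) := by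
  intro y hy z hz s t hs ht hst
  rcases ht.eq_or_lt with rfl | ht
  · have : s = 1 := by linarith
    subst this
    simpa using hy
  · have h1 := Arr.move_oc hA (x := z) (y := y) (by rw [Arr.cc_eq hz]; exact Arr.oc_sub x hy) ht
      (by linarith)
    rw [Arr.oc_eq hz, show 1 - t = s by linarith] at h1
    exact h1

/-- **TRI**: a compact polyhedron carries a finite complex of convex cells; finitely many
polyhedra are subcomplexes, finitely many affine functions have a sign on every open cell -/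
theorem exists_tri {S : Set E} (hS : Poly S) {𝒜 : Set (Set E)} (hf : 𝒜.Finite)
    (h𝒜 : ∀ B ∈ 𝒜, Poly B) (L : Finset (Ineq E)) :
    ∃ (Q : Type u) (_ : PartialOrder Q) (_ : Finite Q) (C : CC S Q), Tri C ∧
      (∀ B ∈ 𝒜, Sub C.cell B) ∧ ∀ h ∈ L, ∀ q x y, Opn C.cell q x → y ∈ C.cell q →
        (h.1 x ≤ h.2 → h.1 y ≤ h.2) ∧ (h.2 ≤ h.1 x → h.2 ≤ h.1 y) := by
  classical
  obtain ⟨H0, hH0⟩ := hS.det
  choose! H hH using fun B (hB : B ∈ 𝒜) => (h𝒜 B hB).det
  let A0 : Finset (Ineq E) := H0 ∪ L ∪ hf.toFinset.biUnion H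
  let A : Finset (Ineq E) := A0 ∪ A0.image fun h => (-h.1, -h.2)
  have hA : Arr.Sym A := by
    intro h hh
    rcases Finset.mem_union.1 hh with hh | hh
    · exact Finset.mem_union_right _ (Finset.mem_image_of_mem _ hh)
    · obtain ⟨g, hg, rfl⟩ := Finset.mem_image.1 hh
      exact Finset.mem_union_left _ (by simpa using hg)
  have s0 : A0 ⊆ A := Finset.subset_union_left
  have hD : Arr.Det A S := hH0 A
    ((Finset.subset_union_left.trans Finset.subset_union_left).trans s0)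
  have hb := hS.isCompact.isBounded
  have key : ∀ (q : Arr.Cell A S) x, Opn (Arr.ccx hA hD hb).cell q x →
      (Arr.ccx hA hD hb).cell q = Arr.cc A x := fun q x hx =>
    (Arr.val_eq q).trans (Arr.cc_eq ((Arr.opn_iff' hD q x).1 hx)).symm
  refine ⟨Arr.Cell A S, inferInstance, inferInstance, Arr.ccx hA hD hb,
    ⟨Arr.cplx hA hD hb, Arr.hull hA hD hb, fun q => ?_⟩, fun B hB q x hx hxB => ?_,
    fun h hh q x y hx hy => ?_⟩
  · have : {x | Opn (Arr.ccx hA hD hb).cell q x} = Arr.oc A (Arr.pt q) := by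
      ext x; exact Arr.opn_iff' hD q x
    rw [this]
    exact Arr.convex_oc hA _
  · rw [key q x hx]
    exact hH B hB A (fun g hg => s0 (Finset.mem_union_right _
      (Finset.mem_biUnion.2 ⟨B, hf.mem_toFinset.2 hB, hg⟩))) x hxB
  · rw [key q x hx] at hy
    have h1 : h ∈ A := s0 (Finset.mem_union_left _ (Finset.mem_union_right _ hh))
    refine ⟨hy h h1, fun h2 => ?_⟩
    simpa using hy _ (hA h h1) (by simpa using h2)

omit [FiniteDimensional ℝ E] in
theorem Tri.vp {S : Set E} {Q : Type*} [PartialOrder Q] [Finite Q] {C : CC S Q} (h : Tri C)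
    (q : Q) : Pl.VP (C.cell q) := ⟨_, (toFinite _).image _, h.hull q⟩

end Crest.Agent.X212.Srf12
end

-- ▼ part X212/Srf12/Pol

/-!
# X212 / SURF (helper12): calculus of compact polyhedra; complexes adapted to PL maps
-/

set_option autoImplicit false

open Set Metric Topology Module Filter

namespace Crest.Agent.X212.Srf12

open Crest.Agent.R096 Crest.Agent.R096.Ce_537 Crest.Agent.R096.Msh_715 Crest.Agent.R096.Xp_537

universe u

variable {E : Type u} [NormedAddCommGroup E] [NormedSpace ℝ E]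
  {F : Type*} [NormedAddCommGroup F] [NormedSpace ℝ F]

theorem poly_vp {C : Set E} (h : Pl.VP C) : Poly C :=
  ⟨{C}, finite_singleton _, by simpa using h, by simp⟩

theorem poly_empty : Poly (∅ : Set E) := ⟨∅, finite_empty, by simp, by simp⟩

theorem poly_singleton (x : E) : Poly ({x} : Set E) :=
  poly_vp ⟨{x}, finite_singleton _, by simp⟩

theorem Poly.union {A B : Set E} (hA : Poly A) (hB : Poly B) : Poly (A ∪ B) := by
  obtain ⟨𝒜, a1, a2, rfl⟩ := hA
  obtain ⟨ℬ, b1, b2, rfl⟩ := hB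
  exact ⟨𝒜 ∪ ℬ, a1.union b1, fun C hC => hC.elim (a2 C) (b2 C), sUnion_union _ _⟩

theorem poly_biUnion {ι : Type*} {s : Set ι} (hs : s.Finite) {A : ι → Set E}
    (h : ∀ i ∈ s, Poly (A i)) : Poly (⋃ i ∈ s, A i) := by
  induction s, hs using Set.Finite.induction_on with
  | empty => simpa using poly_empty
  | @insert a s ha hs ih =>
    rw [biUnion_insert]
    exact (h a (mem_insert _ _)).union (ih fun i hi => h i (mem_insert_of_mem _ hi))

theorem poly_iUnion {ι : Type*} [Finite ι] {A : ι → Set E} (h : ∀ i, Poly (A i)) :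
    Poly (⋃ i, A i) := by
  simpa using poly_biUnion (s := univ) finite_univ fun i _ => h i

theorem Poly.isClosed {A : Set E} (h : Poly A) : IsClosed A := h.isCompact.isClosed

theorem Poly.finConv {A : Set E} (h : Poly A) : Cx_609.FinConv A := by
  obtain ⟨𝒜, a1, a2, rfl⟩ := h
  exact ⟨𝒜, a1, fun C hC => (a2 C hC).convex, rfl⟩

theorem vp_image {C : Set E} (h : Pl.VP C) (g : E →ᵃ[ℝ] F) : Pl.VP (g '' C) := by
  obtain ⟨s, hs, rfl⟩ := h
  exact ⟨g '' s, hs.image _, g.image_convexHull s⟩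

section Sub

variable {S : Set E} {I : Type*} [PartialOrder I] {dim : I → ℕ} {K : I → Set E}

theorem Sub.eq_biUnion (C : Cplx S I dim K) {A : Set E} (h : Sub K A) :
    A ∩ S = ⋃ i ∈ {i | K i ⊆ A}, K i := by
  ext x
  constructor
  · rintro ⟨hA, hS⟩
    obtain ⟨m, hm⟩ := exists_carrier C hS
    exact mem_biUnion (show m ∈ {i | K i ⊆ A} from h m x hm hA) hm.1
  · intro hx
    obtain ⟨i, hi, hx⟩ := mem_iUnion₂.1 hx
    exact ⟨hi hx, C.sub i hx⟩

theorem sub_cell (C : Cplx S I dim K) (i : I) : Sub K (K i) :=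
  fun _ _ hx hi => C.subset (C.opn_le hx hi)

omit [NormedAddCommGroup E] [NormedSpace ℝ E] in
theorem Sub.union {A B : Set E} (hA : Sub K A) (hB : Sub K B) : Sub K (A ∪ B) :=
  fun i x hx h => h.elim (fun h => (hA i x hx h).trans subset_union_left)
    fun h => (hB i x hx h).trans subset_union_right

omit [NormedAddCommGroup E] [NormedSpace ℝ E] in
theorem Sub.inter {A B : Set E} (hA : Sub K A) (hB : Sub K B) : Sub K (A ∩ B) :=
  fun i x hx h => subset_inter (hA i x hx h.1) (hB i x hx h.2)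

omit [NormedAddCommGroup E] [NormedSpace ℝ E] in
theorem sub_biUnion {ι : Type*} {s : Set ι} {A : ι → Set E} (h : ∀ i ∈ s, Sub K (A i)) :
    Sub K (⋃ i ∈ s, A i) := by
  intro i x hx hA
  obtain ⟨j, hj, hA⟩ := mem_iUnion₂.1 hA
  exact (h j hj i x hx hA).trans (subset_biUnion_of_mem hj)

theorem sub_cells (C : Cplx S I dim K) (s : Set I) : Sub K (⋃ i ∈ s, K i) :=
  sub_biUnion fun i _ => sub_cell C i

end Sub

variable [FiniteDimensional ℝ E]

omit [FiniteDimensional ℝ E] in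
theorem Tri.poly_sub {S : Set E} {Q : Type*} [PartialOrder Q] [Finite Q] {C : CC S Q}
    (h : Tri C) {A : Set E} (hA : Sub C.cell A) : Poly (A ∩ S) := by
  rw [hA.eq_biUnion h.cx]
  exact poly_biUnion (toFinite _) fun i _ => poly_vp (h.vp i)

theorem Poly.inter {A B : Set E} (hA : Poly A) (hB : Poly B) : Poly (A ∩ B) := by
  obtain ⟨Q, _, _, C, hC, hs, -⟩ := exists_tri hB (finite_singleton A) (by simpa using hA) ∅
  exact hC.poly_sub (hs A rfl)

/-- the closure of a difference of polyhedra -/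
theorem Poly.closure_diff {A B : Set E} (hA : Poly A) (hB : Poly B) : Poly (closure (A \ B)) := by
  obtain ⟨Q, _, _, C, hC, hs, -⟩ := exists_tri hA (finite_singleton B) (by simpa using hB) ∅
  have : closure (A \ B) = ⋃ q ∈ {q | ¬ C.cell q ⊆ B}, C.cell q := by
    refine (closure_minimal ?_
      ((toFinite _).isClosed_biUnion fun i _ => hC.cx.isClosed i)).antisymm ?_
    · rintro x ⟨hx, hxB⟩
      obtain ⟨q, hq⟩ := hC.cx.cover x hx
      exact mem_biUnion (show q ∈ {q | ¬ C.cell q ⊆ B} from fun h => hxB (h hq)) hq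
    · intro x hx
      obtain ⟨q, hq, hx⟩ := mem_iUnion₂.1 hx
      rw [mem_closure_iff_nhds]
      intro O hO
      obtain ⟨y, hyO, hy⟩ := opn_near hC.cx hx hO
      exact ⟨y, hyO, hC.cx.sub q hy.1, fun h => hq (hs B rfl q y hy h)⟩
  rw [this]
  exact poly_biUnion (toFinite _) fun i _ => poly_vp (hC.vp i)

variable [FiniteDimensional ℝ F]

/-- the inequalities which make a PL map affine on the cells -/
theorem exists_ineq {f : E → F} {B : Set E} (hf : PLOn f B) :
    ∃ L : Finset (Ineq E), ∀ {S : Set E} {Q : Type u} [PartialOrder Q] (C : CC S Q), Tri C →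
      (∀ h ∈ L, ∀ q x y, Opn C.cell q x → y ∈ C.cell q →
        (h.1 x ≤ h.2 → h.1 y ≤ h.2) ∧ (h.2 ≤ h.1 x → h.2 ≤ h.1 y)) →
      ∀ q, C.cell q ⊆ B → ∃ g : E →ᵃ[ℝ] F, EqOn f g (C.cell q) := by
  classical
  obtain ⟨hc, G, hG⟩ := hf
  let b := Module.finBasis ℝ F
  let ι : (E →ᵃ[ℝ] F) × (E →ᵃ[ℝ] F) × Fin (finrank ℝ F) → Ineq E := fun p =>
    (LinearMap.toContinuousLinearMap ((b.coord p.2.2).comp (p.1 - p.2.1).linear),
      -(b.coord p.2.2 ((p.1 - p.2.1) 0)))
  have hι : ∀ g g' j x, (ι (g, g', j)).1 x - (ι (g, g', j)).2 = b.coord j (g x - g' x) := by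
    intro g g' j x
    have h1 : (g - g') x = (g - g').linear x + (g - g') 0 := by
      simpa using (g - g').map_vadd 0 x
    have h2 : g x - g' x = (g - g') x := rfl
    rw [h2, h1, map_add]
    simp [ι]
    ring
  refine ⟨(G ×ˢ G ×ˢ Finset.univ).image ι, fun {S Q} _ C hC hL q hq => ?_⟩
  obtain ⟨g, hg, he⟩ := Cx_609.selection_const (C := {x | Opn C.cell q x})
    (hC.cvx q).isPreconnected (hc.mono fun x hx => hq hx.1)
    (A := (fun g : E →ᵃ[ℝ] F => (g : E → F)) '' (G : Set _)) (G.finite_toSet.image _)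
    (by rintro _ ⟨g, -, rfl⟩; exact g.continuous_of_finiteDimensional.continuousOn)
    (fun x hx => by
      obtain ⟨g, hg, e⟩ := hG x (hq hx.1)
      exact ⟨g, ⟨g, hg, rfl⟩, e⟩)
    (by
      rintro _ ⟨g, hg, rfl⟩ _ ⟨g', hg', rfl⟩ ⟨x, hx, e⟩ y hy
      rw [← sub_eq_zero]
      refine b.ext_elem fun j => ?_
      have h1 := hL (ι (g, g', j)) (Finset.mem_image_of_mem _ (by simp; exact ⟨hg, hg'⟩))
        q x y hx hy.1
      have h2 := hι g g' j x
      have h3 := hι g g' j y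
      have e' : g x = g' x := e
      rw [e', sub_self, map_zero] at h2
      have h4 := h1.1 (by linarith)
      have h5 := h1.2 (by linarith)
      have h6 : b.coord j (g y - g' y) = 0 := by linarith
      simpa using h6)
    (exists_opn_pt hC.cx q)
  obtain ⟨g, -, rfl⟩ := hg
  refine ⟨g, fun x hx => ?_⟩
  have h1 : x ∈ closure {x | Opn C.cell q x} := by
    rw [mem_closure_iff_nhds]
    intro O hO
    obtain ⟨y, hyO, hy⟩ := opn_near hC.cx hx hO
    exact ⟨y, hyO, hy⟩
  exact Cx_609.PLOn.closure_inter hc (fun x hx => hq hx.1) he ⟨h1, hq hx⟩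

/-- **TRI with a PL map** -/
theorem exists_tri_pl {S : Set E} (hS : Poly S) {𝒜 : Set (Set E)} (hf : 𝒜.Finite)
    (h𝒜 : ∀ B ∈ 𝒜, Poly B) {f : E → F} {B : Set E} (hB : PLOn f B) :
    ∃ (Q : Type u) (_ : PartialOrder Q) (_ : Finite Q) (C : CC S Q), Tri C ∧
      (∀ B ∈ 𝒜, Sub C.cell B) ∧ ∀ q, C.cell q ⊆ B → ∃ g : E →ᵃ[ℝ] F, EqOn f g (C.cell q) := by
  obtain ⟨L, hL⟩ := exists_ineq hB
  obtain ⟨Q, _, _, C, hC, hs, h⟩ := exists_tri hS hf h𝒜 L
  exact ⟨Q, inferInstance, inferInstance, C, hC, hs, hL C hC h⟩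

theorem Poly.pieces {A : Set E} (hA : Poly A) {f : E → F} (hf : PLOn f A) :
    ∃ 𝒞 : Set (Set E), 𝒞.Finite ∧ (∀ C ∈ 𝒞, Pl.VP C ∧ ∃ g : E →ᵃ[ℝ] F, EqOn f g C) ∧
      ⋃₀ 𝒞 = A := by
  obtain ⟨Q, _, _, C, hC, -, h⟩ := exists_tri_pl hA finite_empty (by simp) hf
  refine ⟨range C.cell, finite_range _, ?_, ?_⟩
  · rintro _ ⟨q, rfl⟩
    exact ⟨hC.vp q, h q (C.sub q)⟩
  · rw [sUnion_range]
    exact (iUnion_subset C.sub).antisymm fun x hx => mem_iUnion.2 (C.cover x hx)

theorem Poly.image {A : Set E} (hA : Poly A) {f : E → F} (hf : PLOn f A) : Poly (f '' A) := by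
  obtain ⟨𝒞, h1, h2, rfl⟩ := hA.pieces hf
  rw [sUnion_eq_biUnion, image_iUnion₂]
  refine poly_biUnion h1 fun C hC => ?_
  obtain ⟨hv, g, hg⟩ := h2 C hC
  rw [hg.image_eq]
  exact poly_vp (vp_image hv g)

theorem Poly.map {A : Set E} {B : Set F} (hA : Poly A) (e : PLEquiv A B) : Poly B :=
  e.image_eq ▸ hA.image e.pf

/-- preimages of polyhedra -/
theorem Poly.preimage {A : Set E} (hA : Poly A) {f : E → F} (hf : PLOn f A) {B : Set F}
    (hB : Poly B) : Poly (A ∩ f ⁻¹' B) := by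
  classical
  obtain ⟨𝒞, h1, h2, rfl⟩ := hA.pieces hf
  obtain ⟨ℬ, b1, b2, rfl⟩ := hB
  have : ⋃₀ 𝒞 ∩ f ⁻¹' ⋃₀ ℬ = ⋃ C ∈ 𝒞, ⋃ D ∈ ℬ, C ∩ f ⁻¹' D := by
    ext x; simp only [mem_inter_iff, mem_sUnion, mem_preimage, mem_iUnion, exists_prop]
    constructor
    · rintro ⟨⟨C, hC, hx⟩, D, hD, hy⟩; exact ⟨C, hC, D, hD, hx, hy⟩
    · rintro ⟨C, hC, D, hD, hx, hy⟩; exact ⟨⟨C, hC, hx⟩, D, hD, hy⟩
  rw [this]
  refine poly_biUnion h1 fun C hC => poly_biUnion b1 fun D hD => poly_vp ?_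
  obtain ⟨hv, g, hg⟩ := h2 C hC
  obtain ⟨H, rfl⟩ := vp_hrep (b2 D hD)
  have key : ∀ H : Finset (Ineq F), Pl.VP (C ∩ g ⁻¹' P H) := by
    intro H
    induction H using Finset.induction_on with
    | empty => simpa [P] using hv
    | insert h H _ ih =>
      have h3 := ih.inter_nonneg
        (AffineMap.const ℝ E h.2 - (h.1.toLinearMap.toAffineMap).comp g)
      convert h3 using 1
      ext x
      simp [P, and_comm, and_left_comm]
  convert key H using 1
  ext x
  exact and_congr_right fun hx => by rw [mem_preimage, mem_preimage, hg hx]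

omit [FiniteDimensional ℝ E] [FiniteDimensional ℝ F] in
theorem poly_cube (k : ℕ) : Poly (cube k) := poly_vp (Cb_609.vp_cube k)

theorem poly_ball {k : ℕ} {K dK : Set E} (h : IsBall k K dK) : Poly K := by
  obtain ⟨a, -⟩ := h
  exact (poly_cube k).map a

omit [FiniteDimensional ℝ E] [FiniteDimensional ℝ F] in
theorem poly_sph (k : ℕ) : Poly (sph k) := by
  have h := (poly_cube k).preimage ((Cb_609.plMap_norm k).plOn _) (poly_singleton (1 : ℝ))
  convert h using 1
  ext x
  simp only [sph, mem_sphere_iff_norm, sub_zero, cube, mem_inter_iff, mem_closedBall_zero_iff,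
    mem_preimage, mem_singleton_iff]
  exact ⟨fun h => ⟨h.le, h⟩, fun h => h.2⟩

theorem poly_rim {k : ℕ} {K dK : Set E} (h : IsBall k K dK) : Poly dK := by
  obtain ⟨a, rfl⟩ := h
  exact (poly_sph k).image (a.pf.mono sph_subset_cube)

theorem Circ.poly {Γ : Set E} (h : Circ Γ) : Poly Γ := h.elim fun e => (poly_sph 2).map e

theorem Sph.poly {S : Set E} (h : Sph S) : Poly S := h.elim fun e => (poly_sph 3).map e

omit [FiniteDimensional ℝ E] in
/-- a compact set which is locally a polyhedron is a polyhedron -/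
theorem poly_of_loc {S : Set E} (hc : IsCompact S)
    (h : ∀ x ∈ S, ∃ D, Poly D ∧ D ⊆ S ∧ D ∈ 𝓝[S] x) : Poly S := by
  choose! D h1 h2 h3 using h
  obtain ⟨t, ht, hcov⟩ := hc.elim_nhdsWithin_subcover D h3
  have : S = ⋃ x ∈ (t : Set E), D x :=
    Subset.antisymm hcov (iUnion₂_subset fun x hx => h2 x (ht x hx))
  rw [this]
  exact poly_biUnion t.finite_toSet fun x hx => h1 x (ht x hx)

theorem Srf.poly {S dS : Set E} (h : Srf S dS) : Poly S :=
  poly_of_loc h.cpt fun x hx => by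
    obtain ⟨D, Γ, hD, hs, hn, -⟩ := h.loc x hx
    exact ⟨D, poly_ball hD, hs, hn⟩

/-- a surface has a surface complex of convex cells containing given polyhedra -/
theorem Srf.exists_sc {S dS : Set E} (h : Srf S dS) {𝒜 : Set (Set E)} (hf : 𝒜.Finite)
    (h𝒜 : ∀ B ∈ 𝒜, Poly B) : ∃ (Q : Type u) (_ : PartialOrder Q) (_ : Finite Q) (C : CC S Q),
      Tri C ∧ SC S dS Q C.dim C.cell ∧ ∀ B ∈ 𝒜, Sub C.cell B := by
  obtain ⟨Q, _, _, C, hC, hs, -⟩ := exists_tri h.poly hf h𝒜 ∅
  exact ⟨Q, inferInstance, inferInstance, C, hC, h.sc hC.cx, hs⟩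

end Crest.Agent.X212.Srf12
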