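import Crest.Agent.X212.Srf12.Pol
import Crest.Agent.R096.Coh4_184

-- ▼ part X212/Srf12/Circ
section

/-!
# X212 / SURF (helper12): PL circles and arcs in a complex
-/

set_option autoImplicit false

open Set Metric Topology Module

namespace Crest.Agent.X212.Srf12

open Crest.Agent.R096 Crest.Agent.R096.Ce_537 Crest.Agent.R096.Cb_609

variable {E : Type*} [NormedAddCommGroup E] [NormedSpace ℝ E]

theorem circ_of_disc {D Γ : Set E} (h : IsBall 2 D Γ) : Circ Γ := Glu_422.sphere_of_ball h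

theorem Circ.map {F : Type*} [NormedAddCommGroup F] [NormedSpace ℝ F] {Γ : Set E} {Γ' : Set F}
    (h : Circ Γ) (e : PLEquiv Γ Γ') : Circ Γ' := h.elim fun a => ⟨a.trans e⟩

theorem circ_iff_S1 {Γ : Set E} : Circ Γ ↔ Nonempty (PLEquiv (Pl.S1 ℝ) Γ) := by
  obtain ⟨m⟩ := circle_of_disc (isBall_cube 2)
  exact ⟨fun ⟨a⟩ => ⟨m.trans a⟩, fun ⟨a⟩ => ⟨m.symm.trans a⟩⟩

theorem Circ.isCompact {Γ : Set E} (h : Circ Γ) : IsCompact Γ :=
  h.elim fun a => a.image_eq ▸ (isCompact_sphere _ _).image_of_continuousOn a.pf.1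

theorem Circ.isClosed {Γ : Set E} (h : Circ Γ) : IsClosed Γ := h.isCompact.isClosed

theorem Circ.isPreconnected {Γ : Set E} (h : Circ Γ) : IsPreconnected Γ :=
  h.elim fun a => a.image_eq ▸
    (isPreconnected_sphere (by rw [← finrank_eq_rank]; simp) _ _).image _ a.pf.1

theorem Circ.nonempty {Γ : Set E} (h : Circ Γ) : Γ.Nonempty :=
  h.elim fun a => ⟨_, a.mf (show (fun _ => 1 : Fin 2 → ℝ) ∈ sph 2 by simp [sph, pi_norm_const])⟩

theorem Circ.perfect {Γ : Set E} (h : Circ Γ) {x : E} (hx : x ∈ Γ) {O : Set E}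
    (hO : O ∈ 𝓝 x) : ∃ y ∈ O, y ∈ Γ ∧ y ≠ x := by
  obtain ⟨a⟩ := h
  have h1 : a.f ⁻¹' O ∈ 𝓝[sph 2] (a.g x) :=
    (a.pf.1 _ (a.mg hx)).preimage_mem_nhdsWithin (by rw [a.ri x hx]; exact hO)
  obtain ⟨U, hU, hxU, hUO⟩ := mem_nhdsWithin.1 h1
  obtain ⟨y, hyU, hy, hne⟩ := rim_perfect (isBall_cube 2) (a.mg hx) (hU.mem_nhds hxU)
  exact ⟨a.f y, hUO ⟨hyU, hy⟩, a.mf hy, fun e => hne (by rw [← e, a.li y hy])⟩

theorem Circ.compl_arc {Γ A Q : Set E} (h : Circ Γ) (hA : IsBall 1 A Q) (hs : A ⊆ Γ) :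
    ∃ B, IsBall 1 B Q ∧ A ∪ B = Γ ∧ A ∩ B = Q := Glu_422.compl_one.sphere h hA hs

theorem circ_union {A B Q : Set E} (hA : IsBall 1 A Q) (hB : IsBall 1 B Q) (h : A ∩ B = Q) :
    Circ (A ∪ B) := Glu_422.sphere_union hA hB h

theorem Circ.two_marks {Γ : Set E} (h : Circ Γ) {p q : E} (hp : p ∈ Γ) (hq : q ∈ Γ)
    (hne : p ≠ q) : ∃ A B, IsBall 1 A {p, q} ∧ IsBall 1 B {p, q} ∧ A ∪ B = Γ ∧ A ∩ B = {p, q} := by
  obtain ⟨a⟩ := h
  obtain ⟨A, B, hAB, hu⟩ := Cb_609.two_marks (isBall_cube 2) (a.mg hp) (a.mg hq)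
    fun e => hne (a.symm.injOn hp hq e)
  have hA : A ⊆ sph 2 := hu ▸ subset_union_left
  have h1 := hAB.ball₁.map (a.restrImage hA)
  have h2 : (a.restrImage hA).f '' {a.g p, a.g q} = {p, q} := by
    show a.f '' _ = _
    rw [image_pair, a.ri p hp, a.ri q hq]
  rw [h2] at h1
  obtain ⟨B', hB', h3, h4⟩ := Circ.compl_arc ⟨a⟩ h1 (by rintro _ ⟨x, hx, rfl⟩; exact a.mf (hA hx))
  exact ⟨_, B', h1, hB', h3, h4⟩

/-- the parameter on an arc, measured from an end point -/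
theorem arc_param {B : Set E} {p q : E} (h : IsBall 1 B {p, q}) :
    ∃ s : E → ℝ, ContinuousOn s B ∧ InjOn s B ∧ s p = 0 ∧ ∀ x ∈ B, 0 ≤ s x := by
  obtain ⟨a, ha⟩ := h
  have hp : p ∈ a.f '' sph 1 := by rw [ha]; exact Or.inl rfl
  obtain ⟨w, hw, rfl⟩ := hp
  have hb : ∀ x ∈ B, |a.g x 0| ≤ 1 := fun x hx => by
    have := a.mg hx
    rwa [mem_closedBall_zero_iff, norm_fin_one] at this
  have hi : ∀ x ∈ B, ∀ y ∈ B, a.g x 0 = a.g y 0 → x = y := fun x hx y hy e =>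
    a.symm.injOn hx hy (funext fun i => by rw [Subsingleton.elim i 0]; exact e)
  have hc : ContinuousOn (fun x => a.g x 0) B := (continuous_apply 0).comp_continuousOn a.pg.1
  have hl := a.li w (sph_subset_cube hw)
  rw [sph_one] at hw
  rcases hw with rfl | rfl
  · refine ⟨fun x => a.g x 0 + 1, hc.add continuousOn_const,
      fun x hx y hy e => hi x hx y hy (by simpa using e), by simp [hl], fun x hx => ?_⟩
    have := abs_le.1 (hb x hx)
    simp only; linarith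
  · refine ⟨fun x => 1 - a.g x 0, continuousOn_const.sub hc,
      fun x hx y hy e => hi x hx y hy (by simpa using e), by simp [hl], fun x hx => ?_⟩
    have := abs_le.1 (hb x hx)
    simp only; linarith

/-- two connected sets starting at an end point of an arc overlap -/
theorem arc_overlap {B X Y : Set E} {p q : E} (h : IsBall 1 B {p, q}) (hX : X ⊆ B) (hY : Y ⊆ B)
    (cX : IsPreconnected X) (cY : IsPreconnected Y) (pX : p ∈ X) (pY : p ∈ Y)
    (nX : ∃ x ∈ X, x ≠ p) (nY : ∃ y ∈ Y, y ≠ p) : (X ∩ Y).Infinite := by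
  obtain ⟨s, hc, hi, h0, hn⟩ := arc_param h
  obtain ⟨x, hx, hxp⟩ := nX
  obtain ⟨y, hy, hyp⟩ := nY
  have x0 : 0 < s x := lt_of_le_of_ne (hn x (hX hx)) fun e =>
    hxp (hi (hX hx) (hX pX) (by rw [h0, ← e]))
  have y0 : 0 < s y := lt_of_le_of_ne (hn y (hY hy)) fun e =>
    hyp (hi (hY hy) (hX pX) (by rw [h0, ← e]))
  have iX := (cX.image s (hc.mono hX)).Icc_subset ⟨p, pX, h0⟩ ⟨x, hx, rfl⟩
  have iY := (cY.image s (hc.mono hY)).Icc_subset ⟨p, pY, h0⟩ ⟨y, hy, rfl⟩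
  refine Infinite.of_image s ((Icc_infinite (lt_min x0 y0)).mono fun u hu => ?_)
  obtain ⟨a, ha, ea⟩ := iX ⟨hu.1, hu.2.trans (min_le_left _ _)⟩
  obtain ⟨b, hb, eb⟩ := iY ⟨hu.1, hu.2.trans (min_le_right _ _)⟩
  have : a = b := hi (hX ha) (hY hb) (ea.trans eb.symm)
  exact ⟨a, ⟨ha, this ▸ hb⟩, ea⟩

/-- a maximal sub-arc off a closed set -/
theorem exists_gap [FiniteDimensional ℝ E] {γ T : Set E} {p q x : E} (h : IsBall 1 γ {p, q})
    (hT : IsClosed T) (hp : p ∈ T) (hq : q ∈ T) (hx : x ∈ γ) (hxT : x ∉ T) :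
    ∃ α p' q', IsBall 1 α {p', q'} ∧ α ⊆ γ ∧ x ∈ α ∧ α ∩ T = {p', q'} := by
  obtain ⟨a, ha⟩ := h
  let c : ℝ → Fin 1 → ℝ := fun t _ => t
  have hcm : ∀ t, t ∈ Icc (-1 : ℝ) 1 → c t ∈ cube 1 := fun t ht => by
    rw [cube, mem_closedBall_zero_iff, norm_fin_one]; exact abs_le.2 ht
  have hcc : Continuous c := continuous_pi fun _ => continuous_id
  let Z : Set ℝ := Icc (-1 : ℝ) 1 ∩ (fun t => a.f (c t)) ⁻¹' T
  have hZ : IsClosed Z :=
    (a.pf.1.comp hcc.continuousOn hcm).preimage_isClosed_of_isClosed isClosed_Icc hT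
  have hend : ∀ w ∈ sph 1, a.f w ∈ T := fun w hw => by
    have : a.f w ∈ ({p, q} : Set E) := ha ▸ ⟨w, hw, rfl⟩
    rcases this with e | e <;> rw [e] <;> assumption
  have m1 : (-1 : ℝ) ∈ Z := ⟨by norm_num, hend _ (by rw [sph_one]; exact Or.inl rfl)⟩
  have p1 : (1 : ℝ) ∈ Z := ⟨by norm_num, hend _ (by rw [sph_one]; exact Or.inr rfl)⟩
  let t0 := a.g x 0
  have e0 : c t0 = a.g x := funext fun i => by rw [Subsingleton.elim i 0]
  have ht0 : t0 ∈ Icc (-1 : ℝ) 1 := by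
    have := a.mg hx
    rw [mem_closedBall_zero_iff, norm_fin_one] at this
    exact abs_le.1 this
  have hx0 : a.f (c t0) = x := by rw [e0, a.ri x hx]
  have n0 : t0 ∉ Z := fun h => hxT (hx0 ▸ h.2)
  have bl : BddAbove (Z ∩ Iic t0) := ⟨t0, fun _ h => h.2⟩
  have bu : BddBelow (Z ∩ Ici t0) := ⟨t0, fun _ h => h.2⟩
  have hl := (hZ.inter isClosed_Iic).csSup_mem ⟨-1, m1, ht0.1⟩ bl
  have hu := (hZ.inter isClosed_Ici).csInf_mem ⟨1, p1, ht0.2⟩ bu
  set l := sSup (Z ∩ Iic t0)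
  set u := sInf (Z ∩ Ici t0)
  have l0 : l < t0 := lt_of_le_of_ne hl.2 fun e => n0 (e ▸ hl.1)
  have u0 : t0 < u := lt_of_le_of_ne hu.2 fun e => n0 (e ▸ hu.1)
  have hseg : segment ℝ (c l) (c u) = c '' Icc l u := by
    rw [← segment_eq_Icc (l0.trans u0).le]
    exact (image_segment ℝ (LinearMap.pi fun _ : Fin 1 => (LinearMap.id : ℝ →ₗ[ℝ] ℝ)).toAffineMap
      l u).symm
  have hI : Icc l u ⊆ Icc (-1 : ℝ) 1 := Icc_subset_Icc hl.1.1.1 hu.1.1.2
  have hsub : segment ℝ (c l) (c u) ⊆ cube 1 := by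
    rw [hseg]; rintro _ ⟨t, ht, rfl⟩; exact hcm t (hI ht)
  have hb := (isBall_segment (a := c l) (b := c u)
    fun e => (l0.trans u0).ne (congrFun e 0)).map (a.restrImage hsub)
  refine ⟨a.f '' segment ℝ (c l) (c u), a.f (c l), a.f (c u), ?_, ?_, ?_, ?_⟩
  · rw [← image_pair]; exact hb
  · rintro _ ⟨w, hw, rfl⟩; exact a.mf (hsub hw)
  · rw [hseg]; exact ⟨_, ⟨t0, ⟨l0.le, u0.le⟩, rfl⟩, hx0⟩
  · rw [hseg]
    ext y
    constructor
    · rintro ⟨⟨_, ⟨t, ht, rfl⟩, rfl⟩, hy⟩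
      rcases le_total t t0 with h | h
      · left; rw [le_antisymm (le_csSup bl ⟨⟨hI ht, hy⟩, h⟩) ht.1]
      · right
        rw [mem_singleton_iff, le_antisymm ht.2 (csInf_le bu ⟨⟨hI ht, hy⟩, h⟩)]
    · rintro (rfl | rfl)
      · exact ⟨⟨_, ⟨l, ⟨le_rfl, (l0.trans u0).le⟩, rfl⟩, rfl⟩, hl.1.2⟩
      · exact ⟨⟨_, ⟨u, ⟨(l0.trans u0).le, le_rfl⟩, rfl⟩, rfl⟩, hu.1.2⟩

variable {S : Set E} {I : Type*} [PartialOrder I] {dim : I → ℕ} {K : I → Set E}

theorem preconnected_opn (C : Cplx S I dim K) (i : I) : IsPreconnected {x | Opn K i x} := by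
  have : {x | Opn K i x} = K i \ ⋃ j ∈ {j | j < i}, K j := by ext x; exact opn_iff i x
  rw [this]; exact (C.isBall i).isPreconnected_diff

theorem subset_of_opn (C : Cplx S I dim K) {i : I} {A : Set E} (hA : IsClosed A)
    (h : ∀ x, Opn K i x → x ∈ A) : K i ⊆ A := by
  rw [← (C.isBall i).closure_diff]
  exact closure_minimal (fun x hx => h x ((opn_iff i x).2 hx)) hA

theorem sub_of_split (C : Cplx S I dim K) {A B : Set E} (hA : IsClosed A) (hB : IsClosed B)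
    (h : Sub K (A ∪ B)) (hi : Sub K (A ∩ B)) : Sub K A := by
  intro i x hx hxA
  by_cases h1 : ∃ y, Opn K i y ∧ y ∈ A ∩ B
  · obtain ⟨y, hy, hy'⟩ := h1
    exact (hi i y hy hy').trans inter_subset_left
  · refine subset_of_opn C hA fun y hy => by_contra fun hyA => h1 ?_
    have hc := h i x hx (Or.inl hxA)
    obtain ⟨z, hz, hz'⟩ := isPreconnected_closed_iff.1 (preconnected_opn C i) A B hA hB
      (fun z hz => hc hz.1) ⟨x, hx, hxA⟩ ⟨y, hy, (hc hy.1).resolve_left hyA⟩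
    exact ⟨z, hz, hz'⟩

theorem edge_not_sub (C : Cplx S I dim K) {e : I} (he : dim e = 1) {T : Set E} (hT : T.Finite) :
    ¬ K e ⊆ T := by
  intro h
  obtain ⟨p, q, hne, hA, -⟩ := edge_ball C he
  have := arc_overlap hA Subset.rfl Subset.rfl hA.isPreconnected hA.isPreconnected
    (hA.subset (Or.inl rfl)) (hA.subset (Or.inl rfl)) ⟨q, hA.subset (Or.inr rfl), hne.symm⟩
    ⟨q, hA.subset (Or.inr rfl), hne.symm⟩
  rw [inter_self] at this
  exact this (hT.subset h)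

theorem edge_inter (C : Cplx S I dim K) {e e' : I} (he : dim e = 1) (he' : dim e' = 1)
    (hne : e ≠ e') {x : E} (hx : x ∈ K e) (hx' : x ∈ K e') :
    ∃ v, dim v = 0 ∧ v < e ∧ v < e' ∧ x ∈ K v := by
  obtain ⟨m, m1, m2, hm⟩ := C.mem_inter hx hx'
  have h1 : m ≠ e := by rintro rfl; exact hne (eq_of_le C m2 (by omega))
  have h2 := C.mono _ _ (lt_of_le_of_ne m1 h1)
  exact ⟨m, by omega, lt_of_le_of_ne m1 h1, lt_of_le C.mono m2 (by omega), hm⟩

/-- a circle which is a union of edges -/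
structure EC (dim : I → ℕ) (K : I → Set E) (Γ : Set E) : Prop where
  circ : Circ Γ
  cov : ∀ x ∈ Γ, ∃ e, dim e = 1 ∧ K e ⊆ Γ ∧ x ∈ K e

theorem EC.sub (C : Cplx S I dim K) {Γ : Set E} (h : EC dim K Γ) : Sub K Γ := by
  intro i x hx hxΓ
  obtain ⟨e, -, he, hxe⟩ := h.cov x hxΓ
  exact (C.subset (C.opn_le hx hxe)).trans he

theorem dim_le_one (C : Cplx S I dim K) {Γ : Set E} (h : Circ Γ) {i : I} (hi : K i ⊆ Γ) :
    dim i ≤ 1 := by
  by_contra hd
  obtain ⟨a, -⟩ := C.isBall i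
  obtain ⟨p, hp⟩ := h.nonempty
  obtain ⟨q, -, hq, hne⟩ := h.perfect hp Filter.univ_mem
  obtain ⟨A, B, hA, hB, hu, -⟩ := h.two_marks hp hq hne.symm
  have key : ∀ A Q, IsBall 1 A Q → interior (cube (dim i) ∩ a.f ⁻¹' A) = ∅ := by
    rintro A Q ⟨b, -⟩
    by_contra hne
    have hs : interior (cube (dim i) ∩ a.f ⁻¹' A) ⊆ cube (dim i) :=
      fun u hu => (interior_subset hu).1
    have hm : MapsTo a.f (interior (cube (dim i) ∩ a.f ⁻¹' A)) A :=
      fun u hu => (interior_subset hu).2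
    exact no_inj (k := dim i) (m := 1) (by omega) isOpen_interior (nonempty_iff_ne_empty.2 hne)
      (g := fun u => b.g (a.f u)) (b.pg.1.comp (a.pf.1.mono hs) hm)
      fun u hu v hv e => a.injOn (hs hu) (hs hv) (b.symm.injOn (hm hu) (hm hv) e)
  have h1 := interior_union_isClosed_of_interior_empty
    (a.pf.1.preimage_isClosed_of_isClosed isClosed_closedBall hA.isClosed) (key B _ hB)
  rw [key A _ hA, ← inter_union_distrib_left, ← preimage_union, hu,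
    inter_eq_left.2 (show cube (dim i) ⊆ a.f ⁻¹' Γ from fun u hu => hi (a.mf hu)),
    interior_closedBall _ one_ne_zero] at h1
  exact (nonempty_ball.2 one_pos).ne_empty h1

theorem ec_of_sub [Finite I] (C : Cplx S I dim K) {Γ : Set E} (h : Circ Γ) (hs : Γ ⊆ S)
    (hsub : Sub K Γ) : EC dim K Γ := by
  refine ⟨h, fun x hx => ?_⟩
  obtain ⟨O, hO, hxO, hnear⟩ := exists_near C x
  obtain ⟨y, hyO, hy, hne⟩ := h.perfect hx (hO.mem_nhds hxO)
  obtain ⟨m, hm⟩ := exists_carrier C (hs hy)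
  have h1 := hsub m y hm hy
  have h2 := dim_le_one C h h1
  have h3 := hnear m y hyO hm.1
  refine ⟨m, ?_, h1, h3⟩
  by_contra h4
  obtain ⟨p, hp⟩ := vertex_eq C (v := m) (by omega)
  have h5 := hm.1
  rw [hp] at h5 h3
  exact hne (h5.trans h3.symm)

theorem ec_face [Finite I] (C : Cplx S I dim K) {f : I} (hf : dim f = 2) :
    EC dim K (⋃ j ∈ {j | j < f}, K j) :=
  ec_of_sub C (circ_of_disc (face_ball C hf)) ((face_ball C hf).subset.trans (C.sub f))
    (sub_cells C _)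

theorem sub_face_iff (C : Cplx S I dim K) {f i : I} : K i ⊆ ⋃ j ∈ {j | j < f}, K j ↔ i < f := by
  refine ⟨fun h => ?_, fun h => subset_biUnion_of_mem (u := K) (show i ∈ {j | j < f} from h)⟩
  obtain ⟨x, hx⟩ := exists_opn_pt C i
  obtain ⟨j, hj, hxj⟩ := mem_iUnion₂.1 (h hx.1)
  exact lt_of_le_of_lt (C.opn_le hx hxj) hj

theorem mem_ends (C : Cplx S I dim K) {v e : I} (h : v < e) {x : E} (hx : x ∈ K v) {p q : E}
    (hpq : ⋃ j ∈ {j | j < e}, K j = {p, q}) : x = p ∨ x = q := by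
  have : x ∈ ({p, q} : Set E) := hpq ▸ mem_biUnion (show v ∈ {j | j < e} from h) hx
  have _ := C
  exact this

/-- an edge seen from one of its vertices -/
theorem edge_from (C : Cplx S I dim K) {v e : I} (he : dim e = 1) (h : v < e) {p : E}
    (hp : p ∈ K v) : ∃ q, p ≠ q ∧ IsBall 1 (K e) {p, q} ∧ ⋃ j ∈ {j | j < e}, K j = {p, q} := by
  obtain ⟨a, b, hne, hA, hab⟩ := edge_ball C he
  rcases mem_ends C h hp hab with rfl | rfl
  · exact ⟨b, hne, hA, hab⟩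
  · exact ⟨a, hne.symm, pair_comm a p ▸ hA, pair_comm a p ▸ hab⟩

theorem EC.exists_other [Finite I] (C : Cplx S I dim K) {Γ : Set E} (h : EC dim K Γ) {v e : I}
    (hv : dim v = 0) (he : dim e = 1) (hve : v < e) (heΓ : K e ⊆ Γ) :
    ∃ e', dim e' = 1 ∧ v < e' ∧ K e' ⊆ Γ ∧ e' ≠ e := by
  obtain ⟨p, hp⟩ := (C.isBall v).nonempty
  obtain ⟨q, -, hA, -⟩ := edge_from C he hve hp
  obtain ⟨B, hB, hu, hi⟩ := h.circ.compl_arc hA heΓ
  obtain ⟨O, hO, hpO, hnear⟩ := exists_near C p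
  have h1 : p ∈ closure (B \ {p, q}) := by rw [hB.closure_diff]; exact hB.subset (Or.inl rfl)
  obtain ⟨y, hyO, hyB, hy⟩ := mem_closure_iff_nhds.1 h1 O (hO.mem_nhds hpO)
  obtain ⟨e', he', hs, hye⟩ := h.cov y (hu ▸ Or.inr hyB)
  refine ⟨e', he', lt_of_le C.mono (C.opn_le (opn_vertex C hv hp) (hnear e' y hyO hye))
    (by omega), hs, ?_⟩
  rintro rfl
  exact hy (hi ▸ ⟨hye, hyB⟩)

theorem EC.no_three (C : Cplx S I dim K) {Γ : Set E} (h : Circ Γ) {v e₁ e₂ e₃ : I}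
    (d₁ : dim e₁ = 1) (d₂ : dim e₂ = 1) (d₃ : dim e₃ = 1) (v₁ : v < e₁) (v₂ : v < e₂)
    (v₃ : v < e₃) (s₁ : K e₁ ⊆ Γ) (s₂ : K e₂ ⊆ Γ) (s₃ : K e₃ ⊆ Γ) :
    e₁ = e₂ ∨ e₁ = e₃ ∨ e₂ = e₃ := by
  by_contra hn
  push Not at hn
  obtain ⟨p, hp⟩ := (C.isBall v).nonempty
  obtain ⟨q, -, hA, -⟩ := edge_from C d₁ v₁ hp
  obtain ⟨B, hB, hu, -⟩ := h.compl_arc hA s₁
  have key : ∀ e, dim e = 1 → e₁ ≠ e → K e ⊆ Γ → K e ⊆ B := fun e d hne s =>
    subset_of_opn C hB.isClosed fun x hx => ((hu ▸ s hx.1 : x ∈ K e₁ ∪ B)).resolve_left fun h' =>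
      hne (eq_of_le C (C.opn_le hx h') (by omega)).symm
  obtain ⟨q₂, n₂, A₂, b₂⟩ := edge_from C d₂ v₂ hp
  obtain ⟨q₃, n₃, A₃, -⟩ := edge_from C d₃ v₃ hp
  refine arc_overlap hB (key e₂ d₂ hn.1 s₂) (key e₃ d₃ hn.2.1 s₃) A₂.isPreconnected
    A₃.isPreconnected (C.subset v₂.le hp) (C.subset v₃.le hp)
    ⟨q₂, A₂.subset (Or.inr rfl), n₂.symm⟩ ⟨q₃, A₃.subset (Or.inr rfl), n₃.symm⟩
    ((toFinite {p, q₂}).subset fun x hx => ?_)
  obtain ⟨w, -, hw, -, hxw⟩ := edge_inter C d₂ d₃ hn.2.2 hx.1 hx.2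
  exact mem_ends C hw hxw b₂

/-- exactly two edges of an edge circle at each of its vertices -/
theorem EC.two_edges [Finite I] (C : Cplx S I dim K) {Γ : Set E} (h : EC dim K Γ) {v : I}
    (hv : dim v = 0) (hvΓ : K v ⊆ Γ) :
    ∃ e e', e ≠ e' ∧ ∀ g, (dim g = 1 ∧ v < g ∧ K g ⊆ Γ) ↔ g = e ∨ g = e' := by
  obtain ⟨p, hp⟩ := (C.isBall v).nonempty
  obtain ⟨e, he, hs, hpe⟩ := h.cov p (hvΓ hp)
  have hve : v < e := lt_of_le C.mono (C.opn_le (opn_vertex C hv hp) hpe) (by omega)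
  obtain ⟨e', he', hve', hs', hne⟩ := h.exists_other C hv he hve hs
  refine ⟨e, e', hne.symm, fun g => ⟨fun hg => ?_, ?_⟩⟩
  · rcases EC.no_three C h.circ he he' hg.1 hve hve' hg.2.1 hs hs' hg.2.2 with e1 | e1 | e1
    · exact (hne e1.symm).elim
    · exact Or.inl e1.symm
    · exact Or.inr e1.symm
  · rintro (rfl | rfl)
    · exact ⟨he, hve, hs⟩
    · exact ⟨he', hve', hs'⟩

/-- an edge has exactly two vertices -/
theorem two_vertices (C : Cplx S I dim K) {e : I} (he : dim e = 1) :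
    ∃ v w, v ≠ w ∧ ∀ g, g < e ↔ g = v ∨ g = w := by
  obtain ⟨p, q, hne, -, hpq⟩ := edge_ball C he
  have d0 : ∀ g, g < e → dim g = 0 := fun g hg => by have := C.mono _ _ hg; omega
  have h1 : p ∈ ⋃ j ∈ {j | j < e}, K j := hpq ▸ Or.inl rfl
  have h2 : q ∈ ⋃ j ∈ {j | j < e}, K j := hpq ▸ Or.inr rfl
  obtain ⟨v, hv, hpv⟩ := mem_iUnion₂.1 h1
  obtain ⟨w, hw, hqw⟩ := mem_iUnion₂.1 h2
  refine ⟨v, w, ?_, fun g => ⟨fun hg => ?_, ?_⟩⟩
  · rintro rfl
    obtain ⟨r, hr⟩ := vertex_eq C (d0 v hv)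
    rw [hr] at hpv hqw
    exact hne (hpv.trans hqw.symm)
  · obtain ⟨x, hx⟩ := (C.isBall g).nonempty
    rcases mem_ends C hg hx hpq with rfl | rfl
    · exact Or.inl (C.disj _ _ _ (opn_vertex C (d0 g hg) hx) (opn_vertex C (d0 v hv) hpv))
    · exact Or.inr (C.disj _ _ _ (opn_vertex C (d0 g hg) hx) (opn_vertex C (d0 w hw) hqw))
  · rintro (rfl | rfl)
    · exact hv
    · exact hw

end Crest.Agent.X212.Srf12
end

-- ▼ part X212/Srf12/Disc
section

/-!
# X212 / SURF (helper12): a set of faces bounded by a circle is a disc if all edge circles bound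
-/

set_option autoImplicit false

open Set Metric Topology Module

namespace Crest.Agent.X212.Srf12

open Crest.Agent.R096 Crest.Agent.R096.Ce_537 Crest.Agent.R096.Cb_609

variable {E : Type*} [NormedAddCommGroup E] [NormedSpace ℝ E]
  {S dS : Set E} {I : Type*} [PartialOrder I] {dim : I → ℕ} {K : I → Set E}

/-- exactly one member of `X` lies above `e` -/
def bdE (X : Set I) (e : I) : Prop := ∃ f, f ∈ X ∧ e < f ∧ ∀ g, g ∈ X → e < g → g = f

theorem bdE_one {X : Set I} {e f : I} (h : ∀ g, e < g ↔ g = f) : bdE X e ↔ f ∈ X :=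
  ⟨fun ⟨g, hg, h1, _⟩ => (h g).1 h1 ▸ hg, fun hf => ⟨f, hf, (h f).2 rfl, fun g _ hg => (h g).1 hg⟩⟩

theorem bdE_two {X : Set I} {e f f' : I} (hne : f ≠ f') (h : ∀ g, e < g ↔ g = f ∨ g = f') :
    bdE X e ↔ ¬ (f ∈ X ↔ f' ∈ X) := by
  constructor
  · rintro ⟨g, hg, h1, h2⟩ h3
    have a : f ∈ X ∧ f' ∈ X := by
      rcases (h g).1 h1 with rfl | rfl
      · exact ⟨hg, h3.1 hg⟩
      · exact ⟨h3.2 hg, hg⟩
    exact hne ((h2 f a.1 ((h f).2 (Or.inl rfl))).trans (h2 f' a.2 ((h f').2 (Or.inr rfl))).symm)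
  · intro h3
    by_cases a : f ∈ X
    · refine ⟨f, a, (h f).2 (Or.inl rfl), fun g hg h1 => ((h g).1 h1).resolve_right ?_⟩
      rintro rfl; exact h3 ⟨fun _ => hg, fun _ => a⟩
    · have b : f' ∈ X := by by_contra b; exact h3 ⟨fun x => (a x).elim, fun x => (b x).elim⟩
      refine ⟨f', b, (h f').2 (Or.inr rfl), fun g hg h1 => ((h g).1 h1).resolve_left ?_⟩
      rintro rfl; exact a hg

theorem SC.dim_face (h : SC S dS I dim K) {e f : I} (he : dim e = 1) (hf : e < f) : dim f = 2 := by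
  have := h.cx.mono _ _ hf; have := h.le2 f; omega

theorem SC.faces (h : SC S dS I dim K) {e : I} (he : dim e = 1) :
    (∃ f, ∀ g, e < g ↔ g = f) ∨ ∃ f f', f ≠ f' ∧ ∀ g, e < g ↔ g = f ∨ g = f' := by
  obtain ⟨f, hf, hef⟩ := h.pure e
  have hlt : e < f := lt_of_le h.cx.mono hef (by omega)
  by_cases h1 : ∀ g, e < g → g = f
  · exact Or.inl ⟨f, fun g => ⟨h1 g, fun e' => e' ▸ hlt⟩⟩
  · push Not at h1
    obtain ⟨f', hf', hne⟩ := h1
    refine Or.inr ⟨f, f', hne.symm, fun g => ⟨fun hg => ?_, ?_⟩⟩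
    · rcases h.two e f f' g he hlt hf' hg with a | a | a
      · exact (hne a.symm).elim
      · exact Or.inl a.symm
      · exact Or.inr a.symm
    · rintro (rfl | rfl) <;> assumption

theorem SC.bdE_symmDiff (h : SC S dS I dim K) {e : I} (he : dim e = 1) (X Y : Set I) :
    bdE (symmDiff X Y) e ↔ ¬ (bdE X e ↔ bdE Y e) := by
  rcases h.faces he with ⟨f, hf⟩ | ⟨f, f', hne, hf⟩
  · simp only [bdE_one hf, mem_symmDiff]; tauto
  · simp only [bdE_two hne hf, mem_symmDiff]; tauto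

open Classical in
/-- incidence numbers mod 2 -/
noncomputable def inc (dim : I → ℕ) (a b : I) : ZMod 2 :=
  if a < b ∧ dim b = dim a + 1 then 1 else 0

open Classical in
/-- indicator of a set of cells -/
noncomputable def ind (X : Set I) (a : I) : ZMod 2 := if a ∈ X then 1 else 0

theorem sum_two {ι : Type*} [Fintype ι] {F : ι → ZMod 2} {a b : ι} (hne : a ≠ b)
    (h : ∀ g, g ≠ a → g ≠ b → F g = 0) : ∑ g, F g = F a + F b :=
  Finset.sum_eq_add a b hne (fun g _ hg => h g hg.1 hg.2) (by simp) (by simp)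

theorem SC.inc_inc [Fintype I] (h : SC S dS I dim K) (v f : I) :
    ∑ e, inc dim v e * inc dim e f = 0 := by
  by_cases h0 : dim v = 0 ∧ dim f = 2 ∧ v < f
  · obtain ⟨a, b, hne, hab⟩ := (ec_face h.cx h0.2.1).two_edges h.cx h0.1
      ((sub_face_iff h.cx).2 h0.2.2)
    simp only [sub_face_iff h.cx] at hab
    have one : ∀ g, g = a ∨ g = b → inc dim v g * inc dim g f = 1 := fun g hg => by
      obtain ⟨d, h1, h2⟩ := (hab g).2 hg
      simp [inc, h1, h2, d, h0.1, h0.2.1]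
    rw [sum_two hne, one a (Or.inl rfl), one b (Or.inr rfl)]
    · rfl
    · intro g ha hb
      by_contra hn
      have h1 : v < g ∧ dim g = dim v + 1 := by by_contra h1; simp [inc, h1] at hn
      have h2 : g < f ∧ dim f = dim g + 1 := by by_contra h2; simp [inc, h2] at hn
      rcases (hab g).1 ⟨by omega, h1.1, h2.1⟩ with e | e
      · exact ha e
      · exact hb e
  · refine Finset.sum_eq_zero fun g _ => ?_
    by_contra hn
    have h1 : v < g ∧ dim g = dim v + 1 := by by_contra h1; simp [inc, h1] at hn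
    have h2 : g < f ∧ dim f = dim g + 1 := by by_contra h2; simp [inc, h2] at hn
    have := h.le2 f
    exact h0 ⟨by omega, by omega, h1.1.trans h2.1⟩

theorem SC.inc_face (h : SC S dS I dim K) {e : I} (he : dim e = 1) (g : I) :
    (e < g → inc dim e g = 1) ∧ (¬ e < g → inc dim e g = 0) :=
  ⟨fun hg => by simp [inc, hg, he, h.dim_face he hg], fun hg => by simp [inc, hg]⟩

theorem SC.sum_ind [Fintype I] (h : SC S dS I dim K) {e : I} (he : dim e = 1) (X : Set I) :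
    ∑ g, inc dim e g * ind X g = ind {e | bdE X e} e := by
  rcases h.faces he with ⟨f, hf⟩ | ⟨f, f', hne, hf⟩
  · rw [Finset.sum_eq_single f, (h.inc_face he f).1 ((hf f).2 rfl), one_mul]
    · by_cases a : f ∈ X <;> simp [ind, bdE_one hf, a]
    · intro g _ hg
      rw [(h.inc_face he g).2 fun a => hg ((hf g).1 a), zero_mul]
    · simp
  · rw [sum_two hne, (h.inc_face he f).1 ((hf f).2 (Or.inl rfl)),
      (h.inc_face he f').1 ((hf f').2 (Or.inr rfl))]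
    · by_cases a : f ∈ X <;> by_cases b : f' ∈ X <;> simp [ind, bdE_two hne hf, a, b]
      rfl
    · intro g ha hb
      rw [(h.inc_face he g).2 fun a => ((hf g).1 a).elim ha hb, zero_mul]

theorem SC.no_free_end [Finite I] (h : SC S dS I dim K) {X : Set I} {v e : I} (hv : dim v = 0)
    (he : dim e = 1) (hve : v < e) (hb : bdE X e) :
    ∃ e', dim e' = 1 ∧ v < e' ∧ bdE X e' ∧ e' ≠ e := by
  have := Fintype.ofFinite I
  by_contra hn
  push Not at hn
  have h1 : ∑ e', inc dim v e' * ∑ g, inc dim e' g * ind X g = 0 := by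
    simp only [Finset.mul_sum, ← mul_assoc]
    rw [Finset.sum_comm]
    exact Finset.sum_eq_zero fun g _ => by rw [← Finset.sum_mul, h.inc_inc, zero_mul]
  rw [Finset.sum_eq_single e, h.sum_ind he] at h1
  · simp [inc, ind, hve, hv, he, hb] at h1
  · intro e' _ hne
    by_cases h2 : v < e' ∧ dim e' = dim v + 1
    · have d : dim e' = 1 := by omega
      have : ¬ bdE X e' := fun a => hne (hn e' d h2.1 a)
      rw [h.sum_ind d]
      simp [ind, this]
    · simp [inc, h2]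
  · simp

/-- a nonempty set of edges of an edge circle without free ends is everything -/
theorem EC.minimal [Finite I] (C : Cplx S I dim K) {Γ : Set E} (hΓ : EC dim K Γ) {Z : I → Prop}
    (hZ : ∀ e, dim e = 1 → Z e → K e ⊆ Γ)
    (hend : ∀ v e, dim v = 0 → dim e = 1 → v < e → Z e → ∃ e', dim e' = 1 ∧ v < e' ∧ Z e' ∧ e' ≠ e)
    {e₀ : I} (d₀ : dim e₀ = 1) (h₀ : Z e₀) {e : I} (d : dim e = 1) (he : K e ⊆ Γ) : Z e := by
  by_contra hn
  obtain ⟨y, -, hA, hB⟩ := isPreconnected_closed_iff.1 hΓ.circ.isPreconnected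
    (⋃ g ∈ {g | dim g = 1 ∧ Z g}, K g) (⋃ g ∈ {g | dim g = 1 ∧ K g ⊆ Γ ∧ ¬ Z g}, K g)
    ((toFinite _).isClosed_biUnion fun i _ => C.isClosed i)
    ((toFinite _).isClosed_biUnion fun i _ => C.isClosed i)
    (fun y hy => by
      obtain ⟨g, hg, hs, hyg⟩ := hΓ.cov y hy
      by_cases cg : Z g
      · exact Or.inl (mem_biUnion (show g ∈ {g | dim g = 1 ∧ Z g} from ⟨hg, cg⟩) hyg)
      · exact Or.inr (mem_biUnion
          (show g ∈ {g | dim g = 1 ∧ K g ⊆ Γ ∧ ¬ Z g} from ⟨hg, hs, cg⟩) hyg))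
    ((C.isBall e₀).nonempty.mono (subset_inter (hZ e₀ d₀ h₀)
      (subset_biUnion_of_mem (u := K) (show e₀ ∈ {g | dim g = 1 ∧ Z g} from ⟨d₀, h₀⟩))))
    ((C.isBall e).nonempty.mono (subset_inter he (subset_biUnion_of_mem (u := K)
      (show e ∈ {g | dim g = 1 ∧ K g ⊆ Γ ∧ ¬ Z g} from ⟨d, he, hn⟩))))
  obtain ⟨g, ⟨dg, zg⟩, hg⟩ := mem_iUnion₂.1 hA
  obtain ⟨g', ⟨dg', sg', zg'⟩, hg'⟩ := mem_iUnion₂.1 hB
  have hne : g ≠ g' := by rintro rfl; exact zg' zg
  obtain ⟨v, hv, v1, v2, -⟩ := edge_inter C dg dg' hne hg hg'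
  obtain ⟨g'', d'', v3, z'', ne''⟩ := hend v g hv dg v1 zg
  rcases EC.no_three C hΓ.circ dg dg' d'' v1 v2 v3 (hZ g dg zg) sg' (hZ g'' d'' z'') with a | a | a
  · exact hne a
  · exact ne'' a.symm
  · exact zg' (a ▸ z'')

/-- the union of the cells of `X` -/
def car (K : I → Set E) (X : Set I) : Set E := ⋃ f ∈ X, K f

/-- `X` is bounded by `Γ` -/
def Bds (dim : I → ℕ) (K : I → Set E) (X : Set I) (Γ : Set E) : Prop :=
  ∀ e, dim e = 1 → (bdE X e ↔ K e ⊆ Γ)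

theorem Bds.subset {X : Set I} {Γ : Set E} (C : Cplx S I dim K) (h : Bds dim K X Γ)
    (hΓ : EC dim K Γ) : Γ ⊆ car K X := by
  intro x hx
  obtain ⟨e, he, hs, hxe⟩ := hΓ.cov x hx
  obtain ⟨f, hf, hef, -⟩ := (h e he).2 hs
  exact mem_biUnion hf (C.subset hef.le hxe)

/-- a point common to a face of `Y` and to a face outside `Y` lies on the boundary -/
theorem SC.mem_bd (h : SC S dS I dim K) {Y : Set I} {Γ : Set E} (hY : Bds dim K Y Γ) {f f' : I}
    (d : dim f = 2) (d' : dim f' = 2) (hf : f ∈ Y) (hf' : f' ∉ Y) {y : E} (hy : y ∈ K f)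
    (hy' : y ∈ K f') : y ∈ Γ := by
  have key : ∀ e g g', dim e = 1 → e < g → e < g' → g ∈ Y → g' ∉ Y → K e ⊆ Γ := by
    intro e g g' de h1 h2 a b
    refine (hY e de).1 ⟨g, a, h1, fun g'' c h3 => ?_⟩
    rcases h.two e g g' g'' de h1 h2 h3 with x | x | x
    · exact (b (x ▸ a)).elim
    · exact x.symm
    · exact (b (x ▸ c)).elim
  obtain ⟨m, m1, m2, hm⟩ := h.cx.mem_inter hy hy'
  have n1 : m ≠ f := by rintro rfl; exact hf' (eq_of_le h.cx m2 (by omega) ▸ hf)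
  have l1 := lt_of_le_of_ne m1 n1
  have l3 := h.cx.mono _ _ l1
  have l2 : m < f' := lt_of_le h.cx.mono m2 (by omega)
  by_cases dm : dim m = 1
  · exact key m f f' dm l1 l2 hf hf' hm
  · by_contra hn
    refine hf' ((h.link m (· ∈ Y) (by omega) (fun e g g' h0 h1 h2 => ?_) f f' d d' l1 l2).1 hf)
    have de : dim e = 1 := by
      have := h.cx.mono _ _ h0; have := h.cx.mono _ _ h1; have := h.le2 g; omega
    constructor
    · intro a; by_contra b; exact hn (key e g g' de h1 h2 a b (h.cx.subset h0.le hm))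
    · intro a; by_contra b; exact hn (key e g' g de h2 h1 a b (h.cx.subset h0.le hm))

theorem sub_pt [Finite I] (C : Cplx S I dim K) {f : I} (hf : dim f = 2) {Γ : Set E}
    (hΓ : Sub K Γ) {p : E} (hp : p ∈ Γ)
    (hc : p ∈ closure ((⋃ j ∈ {j | j < f}, K j) \ Γ)) : Sub K {p} := by
  rintro i x hx rfl
  obtain ⟨O, hO, hxO, hnear⟩ := exists_near C x
  obtain ⟨y, hyO, hy, hyΓ⟩ := mem_closure_iff_nhds.1 hc O (hO.mem_nhds hxO)
  obtain ⟨j, hj, hyj⟩ := mem_iUnion₂.1 hy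
  have h1 : i ≤ j := C.opn_le hx (hnear j y hyO hyj)
  have h2 : i ≠ j := by rintro rfl; exact hyΓ (hΓ i x hx hp hyj)
  have h3 := C.mono _ _ (lt_of_le_of_ne h1 h2)
  have h4 := C.mono _ _ hj
  obtain ⟨q, hq⟩ := vertex_eq C (v := i) (by omega)
  have h5 := hx.1
  rw [hq] at h5 ⊢
  rw [h5]

/-- an arc of edges of the face `f` which meets `Γ` in its end points -/
theorem exists_chord [Finite I] [FiniteDimensional ℝ E] (C : Cplx S I dim K) {f e₀ e₁ : I}
    (hf : dim f = 2) {Γ : Set E} (hc : IsClosed Γ) (hΓ : Sub K Γ) (d₀ : dim e₀ = 1) (h₀ : e₀ < f)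
    (s₀ : K e₀ ⊆ Γ) (h₁ : e₁ < f) (s₁ : ¬ K e₁ ⊆ Γ) :
    ∃ α p q, IsBall 1 α {p, q} ∧ α ⊆ ⋃ j ∈ {j | j < f}, K j ∧ α ∩ Γ = {p, q} ∧ Sub K α ∧
      Sub K {p, q} ∧ K e₁ ⊆ α := by
  obtain ⟨p₀, q₀, -, hA, -⟩ := edge_ball C d₀
  have hR := ec_face C hf
  obtain ⟨γ, hγ, hu, -⟩ := hR.circ.compl_arc hA ((sub_face_iff C).2 h₀)
  obtain ⟨x, hx⟩ := exists_opn_pt C e₁
  have hxΓ : x ∉ Γ := fun h => s₁ (hΓ e₁ x hx h)
  have hxγ : x ∈ γ := (hu ▸ (sub_face_iff C).2 h₁ hx.1 : x ∈ K e₀ ∪ γ).resolve_left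
    fun h => hxΓ (s₀ h)
  obtain ⟨α, p, q, hα, hs, hxα, hi⟩ := exists_gap hγ hc (s₀ (hA.subset (Or.inl rfl)))
    (s₀ (hA.subset (Or.inr rfl))) hxγ hxΓ
  have hs' : α ⊆ ⋃ j ∈ {j | j < f}, K j := hs.trans (hu ▸ subset_union_right)
  have hpt : ∀ r ∈ ({p, q} : Set E), Sub K {r} := fun r hr => by
    refine sub_pt C hf hΓ (hi ▸ hr : r ∈ α ∩ Γ).2 (closure_mono (s := α \ {p, q}) ?_ ?_)
    · exact fun y hy => ⟨hs' hy.1, fun h => hy.2 (hi ▸ ⟨hy.1, h⟩)⟩
    · rw [hα.closure_diff]; exact hα.subset hr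
  have hpq : Sub K {p, q} := (hpt p (Or.inl rfl)).union (hpt q (Or.inr rfl))
  obtain ⟨α', hα', hu', hi'⟩ := hR.circ.compl_arc hα hs'
  have hsub : Sub K α := sub_of_split C hα.isClosed hα'.isClosed (hu' ▸ hR.sub C) (hi' ▸ hpq)
  exact ⟨α, p, q, hα, hs', hi, hsub, hpq, hsub e₁ x hx hxα⟩

theorem sub_union_iff (C : Cplx S I dim K) {A B : Set E} (hA : Sub K A) (hB : Sub K B) {i : I} :
    K i ⊆ A ∪ B ↔ K i ⊆ A ∨ K i ⊆ B := by
  refine ⟨fun h => ?_, fun h => h.elim (·.trans subset_union_left) (·.trans subset_union_right)⟩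
  obtain ⟨x, hx⟩ := exists_opn_pt C i
  exact (h hx.1).imp (hA i x hx) (hB i x hx)

/-- **the disc theorem on a surface complex** -/
theorem SC.disc [Finite I] [FiniteDimensional ℝ E] (h : SC S dS I dim K) {U : Set I}
    (hU : ∀ f ∈ U, dim f = 2)
    (U1 : ∀ X ⊆ U, (∀ e, dim e = 1 → ¬ bdE X e) → X = ∅)
    (U2 : ∀ Γ, EC dim K Γ → Γ ⊆ car K U → ∃ Y ⊆ U, Bds dim K Y Γ)
    {X : Set I} (hX : X ⊆ U) {Γ : Set E} (hΓ : EC dim K Γ) (hb : Bds dim K X Γ) :
    IsBall 2 (car K X) Γ := by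
  have C := h.cx
  have uniq : ∀ X ⊆ U, ∀ Y ⊆ U, (∀ e, dim e = 1 → (bdE X e ↔ bdE Y e)) → X = Y := by
    intro X hX Y hY hXY
    rw [← symmDiff_eq_empty]
    refine U1 _ (symmDiff_subset_union.trans (union_subset hX hY)) fun e de => ?_
    rw [h.bdE_symmDiff de]
    exact not_not.2 (hXY e de)
  have mini : ∀ {Γ}, EC dim K Γ → ∀ Z, (∀ e, dim e = 1 → bdE Z e → K e ⊆ Γ) →
      ∀ e₀, dim e₀ = 1 → bdE Z e₀ → Bds dim K Z Γ := fun hΓ Z hZ e₀ d₀ h₀ e de =>
    ⟨hZ e de, hΓ.minimal C hZ (fun v e hv he hve => h.no_free_end hv he hve) d₀ h₀ de⟩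
  induction hn : X.ncard using Nat.strong_induction_on generalizing X Γ with
  | _ n ih =>
  obtain ⟨x₀, hx₀⟩ := hΓ.circ.nonempty
  obtain ⟨e₀, d₀, s₀, -⟩ := hΓ.cov x₀ hx₀
  obtain ⟨f, hfX, h₀, -⟩ := (hb e₀ d₀).2 s₀
  have df := hU f (hX hfX)
  by_cases hall : ∀ e, dim e = 1 → e < f → K e ⊆ Γ
  · have b1 : ∀ e, bdE {f} e ↔ e < f := fun e =>
      ⟨fun ⟨g, hg, h1, _⟩ => hg ▸ h1, fun h1 => ⟨f, rfl, h1, fun g hg _ => hg⟩⟩
    have b2 := mini hΓ {f} (fun e de a => hall e de ((b1 e).1 a)) e₀ d₀ ((b1 e₀).2 h₀)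
    have b3 : X = {f} := uniq X hX {f} (singleton_subset_iff.2 (hX hfX))
      fun e de => (hb e de).trans (b2 e de).symm
    have b4 : Γ = ⋃ j ∈ {j | j < f}, K j := by
      refine Subset.antisymm (fun x hx => ?_) fun x hx => ?_
      · obtain ⟨e, de, s, hxe⟩ := hΓ.cov x hx
        exact (sub_face_iff C).2 ((b1 e).1 ((b2 e de).2 s)) hxe
      · obtain ⟨e, de, s, hxe⟩ := (ec_face C df).cov x hx
        exact hall e de ((sub_face_iff C).1 s) hxe
    rw [b3, b4, car, biUnion_singleton]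
    exact face_ball C df
  push Not at hall
  obtain ⟨e₁, d₁, h₁, s₁⟩ := hall
  obtain ⟨α, p, q, hα, sα, iα, subα, subpq, s₁α⟩ :=
    exists_chord C df hΓ.circ.isClosed (hΓ.sub C) d₀ h₀ s₀ h₁ s₁
  have hp : p ∈ α ∩ Γ := iα ▸ Or.inl rfl
  have hq : q ∈ α ∩ Γ := iα ▸ Or.inr rfl
  obtain ⟨β₁, β₂, hβ₁, hβ₂, hu, hi⟩ := hΓ.circ.two_marks hp.2 hq.2 (arc_ne hα)
  have sub₁ : Sub K β₁ :=
    sub_of_split C hβ₁.isClosed hβ₂.isClosed (hu ▸ hΓ.sub C) (hi ▸ subpq)
  have sub₂ : Sub K β₂ := sub_of_split C hβ₂.isClosed hβ₁.isClosed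
    (by rw [union_comm, hu]; exact hΓ.sub C) (by rw [inter_comm, hi]; exact subpq)
  have ia : ∀ β, IsBall 1 β {p, q} → β ⊆ Γ → α ∩ β = {p, q} := fun β hβ s =>
    Subset.antisymm (iα ▸ inter_subset_inter_right _ s) (subset_inter hα.subset hβ.subset)
  have s1 : β₁ ⊆ Γ := hu ▸ subset_union_left
  have s2 : β₂ ⊆ Γ := hu ▸ subset_union_right
  have carU : car K X ⊆ car K U := biUnion_subset_biUnion_left hX
  have sαX : α ⊆ car K X := sα.trans ((face_ball C df).subset.trans (subset_biUnion_of_mem hfX))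
  have sΓX := hb.subset C hΓ
  have carS : car K U ⊆ S := iUnion₂_subset fun i _ => C.sub i
  have ec : ∀ β, IsBall 1 β {p, q} → β ⊆ Γ → Sub K β → EC dim K (α ∪ β) := fun β hβ s sb =>
    ec_of_sub C (circ_union hα hβ (ia β hβ s))
      ((union_subset sαX (s.trans sΓX)).trans (carU.trans carS)) (subα.union sb)
  have c₁ := ec β₁ hβ₁ s1 sub₁
  have c₂ := ec β₂ hβ₂ s2 sub₂
  obtain ⟨Y₁, u₁, b₁⟩ := U2 _ c₁ ((union_subset sαX (s1.trans sΓX)).trans carU)
  obtain ⟨Y₂, u₂, b₂⟩ := U2 _ c₂ ((union_subset sαX (s2.trans sΓX)).trans carU)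
  have fin : ({p, q} : Set E).Finite := toFinite _
  have ex : ∀ e, dim e = 1 → ∀ A B : Set E, A ∩ B = {p, q} → K e ⊆ A → ¬ K e ⊆ B :=
    fun e de A B hAB a b => edge_not_sub C de fin (hAB ▸ subset_inter a b)
  have r₁ : ∀ e, dim e = 1 → (bdE Y₁ e ↔ K e ⊆ α ∨ K e ⊆ β₁) := fun e de =>
    (b₁ e de).trans (sub_union_iff C subα sub₁)
  have r₂ : ∀ e, dim e = 1 → (bdE Y₂ e ↔ K e ⊆ α ∨ K e ⊆ β₂) := fun e de =>
    (b₂ e de).trans (sub_union_iff C subα sub₂)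
  have r : ∀ e, dim e = 1 → (bdE X e ↔ K e ⊆ β₁ ∨ K e ⊆ β₂) := fun e de =>
    (hb e de).trans (hu ▸ sub_union_iff C sub₁ sub₂)
  have hXY : X = symmDiff Y₁ Y₂ := by
    refine uniq X hX _ (symmDiff_subset_union.trans (union_subset u₁ u₂)) fun e de => ?_
    rw [h.bdE_symmDiff de, r₁ e de, r₂ e de, r e de]
    have := ex e de α β₁ (ia β₁ hβ₁ s1)
    have := ex e de α β₂ (ia β₂ hβ₂ s2)
    have := ex e de β₁ β₂ hi
    tauto
  have hZX : ∀ g, g ∈ Y₁ ∩ Y₂ → g ∉ X := fun g hg hgX => by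
    rw [hXY, mem_symmDiff] at hgX
    exact hgX.elim (fun a => a.2 hg.2) fun a => a.2 hg.1
  have hZ : ∀ e, dim e = 1 → bdE (Y₁ ∩ Y₂) e → K e ⊆ Γ := by
    intro e de hz
    by_contra hn
    have n1 : ¬ K e ⊆ β₁ := fun a => hn (a.trans s1)
    have n2 : ¬ K e ⊆ β₂ := fun a => hn (a.trans s2)
    have nX : ¬ bdE X e := fun a => hn ((hb e de).1 a)
    by_cases ha : K e ⊆ α
    · have hef : e < f := (sub_face_iff C).1 (ha.trans sα)
      obtain ⟨g, hg, heg, -⟩ := hz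
      refine nX ⟨f, hfX, hef, fun g' hg' h' => ?_⟩
      rcases h.two e f g g' de hef heg h' with a | a | a
      · exact (hZX g hg (a ▸ hfX)).elim
      · exact a.symm
      · exact (hZX g hg (a ▸ hg')).elim
    · have m1 : ¬ bdE Y₁ e := fun a => ((r₁ e de).1 a).elim ha n1
      have m2 : ¬ bdE Y₂ e := fun a => ((r₂ e de).1 a).elim ha n2
      rcases h.faces de with ⟨g, hg⟩ | ⟨g, g', hne, hg⟩
      · rw [bdE_one hg] at hz m1; exact m1 hz.1
      · rw [bdE_two hne hg] at hz m1 m2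
        simp only [mem_inter_iff] at hz
        tauto
  have hZ0 : Y₁ ∩ Y₂ = ∅ := by
    refine U1 _ (inter_subset_left.trans u₁) fun e de hz => ?_
    have := uniq _ (inter_subset_left.trans u₁) X hX
      fun e' de' => (mini hΓ _ hZ e de hz e' de').trans (hb e' de').symm
    exact hZX f (this ▸ hfX) hfX
  have dj : ∀ g, g ∈ Y₁ → g ∉ Y₂ := fun g a b => (hZ0 ▸ ⟨a, b⟩ : g ∈ (∅ : Set I))
  have hXu : X = Y₁ ∪ Y₂ := by
    rw [hXY]
    ext g
    rw [mem_symmDiff, mem_union]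
    have := dj g
    tauto
  obtain ⟨f₁, hf₁, -⟩ := (r₁ e₁ d₁).2 (Or.inl s₁α)
  obtain ⟨f₂, hf₂, -⟩ := (r₂ e₁ d₁).2 (Or.inl s₁α)
  have D₁ := ih _ (hn ▸ ncard_lt_ncard (ssubset_iff_of_subset (hXu ▸ subset_union_left) |>.2
    ⟨f₂, hXu ▸ Or.inr hf₂, fun a => dj f₂ a hf₂⟩)) u₁ c₁ b₁ rfl
  have D₂ := ih _ (hn ▸ ncard_lt_ncard (ssubset_iff_of_subset (hXu ▸ subset_union_right) |>.2
    ⟨f₁, hXu ▸ Or.inl hf₁, dj f₁ hf₁⟩)) u₂ c₂ b₂ rfl
  have hK : car K Y₁ ∩ car K Y₂ = α := by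
    refine Subset.antisymm ?_ (subset_inter (subset_union_left.trans D₁.subset)
      (subset_union_left.trans D₂.subset))
    rintro y ⟨y₁, y₂⟩
    obtain ⟨g₁, a₁, y₁⟩ := mem_iUnion₂.1 y₁
    obtain ⟨g₂, a₂, y₂⟩ := mem_iUnion₂.1 y₂
    have t₁ := h.mem_bd b₁ (hU _ (u₁ a₁)) (hU _ (u₂ a₂)) a₁ (fun a => dj _ a a₂) y₁ y₂
    have t₂ := h.mem_bd b₂ (hU _ (u₂ a₂)) (hU _ (u₁ a₁)) a₂ (dj _ a₁) y₂ y₁
    rcases t₁ with t₁ | t₁
    · exact t₁
    · exact t₂.elim id fun t₂ => hα.subset (hi ▸ ⟨t₁, t₂⟩)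
  have := IsBall.glue (k := 1) D₁ D₂ hα hβ₁ hβ₂ (ia β₁ hβ₁ s1) (ia β₂ hβ₂ s2) hK
  rwa [hu, car, car, ← biUnion_union, ← hXu] at this

end Crest.Agent.X212.Srf12
end

-- ▼ part X212/Srf12/Hom
section

/-!
# X212 / SURF (helper12): edge cochains and locally constant cocycles
-/

set_option autoImplicit false

open Set Metric Topology Module

namespace Crest.Agent.X212.Srf12

open Crest.Agent.R096 Crest.Agent.R096.Ce_537 Crest.Agent.R096.Cb_609 Crest.Agent.R096.Coh_184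

section Reindex

variable {X Y : Type*} [TopologicalSpace X] [TopologicalSpace Y] {ι ι' A : Type*} [AddCommGroup A]

theorem coc_reindex {C : ι → Set X} {d : ι → ι → X → A} {S : Set X} (h : Coc C d S)
    (e : ι' ≃ ι) : Coc (fun i => C (e i)) (fun i j => d (e i) (e j)) S where
  closed i := h.closed _
  cov x hx := by
    obtain ⟨i, hi⟩ := mem_iUnion.1 (h.cov hx)
    exact mem_iUnion.2 ⟨e.symm i, by simpa using hi⟩
  lc i j := h.lc _ _
  coc i j k := h.coc _ _ _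

theorem triv_reindex {C : ι → Set X} {d : ι → ι → X → A} {S : Set X} (e : ι' ≃ ι) :
    Triv (fun i => C (e i)) (fun i j => d (e i) (e j)) S ↔ Triv C d S := by
  constructor
  · rintro ⟨χ, h1, h2⟩
    refine ⟨fun i => χ (e.symm i), fun i => by simpa using h1 (e.symm i), fun i j x hi hj hx => ?_⟩
    simpa using h2 (e.symm i) (e.symm j) x (by simpa using hi) (by simpa using hj) hx
  · rintro ⟨χ, h1, h2⟩
    exact ⟨fun i => χ (e i), fun i => h1 _, fun i j => h2 _ _⟩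

theorem H1.triv [Finite ι] {S : Set X} (h : H1 S) {C : ι → Set X} {d : ι → ι → X → ZMod 2}
    (hc : Coc C d S) : Triv C d S := by
  obtain ⟨n, ⟨e⟩⟩ := Finite.exists_equiv_fin ι
  exact (triv_reindex e.symm).1 (h n _ _ (coc_reindex hc e.symm))

theorem H1Rel.triv [Finite ι] {S T : Set X} (h : H1Rel S T) {C : ι → Set X}
    {d : ι → ι → X → ZMod 2} (hc : Coc C d S) (ht : Triv C d T) : Triv C d S := by
  obtain ⟨n, ⟨e⟩⟩ := Finite.exists_equiv_fin ι
  exact (triv_reindex e.symm).1 (h n _ _ (coc_reindex hc e.symm) ((triv_reindex e.symm).2 ht))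

theorem lc_comp {B : Type*} {f : X → B} {s : Set X} (h : LC f s) {g : Y → X} {t : Set Y}
    (hg : ContinuousOn g t) (hm : MapsTo g t s) : LC (fun y => f (g y)) t :=
  fun y hy => ((hg y hy).tendsto_nhdsWithin hm).eventually (h _ (hm hy))

theorem coc_comp {C : ι → Set X} {d : ι → ι → X → A} {S : Set X} (h : Coc C d S) {g : Y → X}
    (hg : Continuous g) {T : Set Y} (hm : MapsTo g T S) :
    Coc (fun i => g ⁻¹' C i) (fun i j y => d i j (g y)) T where
  closed i := (h.closed i).preimage hg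
  cov y hy := by
    obtain ⟨i, hi⟩ := mem_iUnion.1 (h.cov (hm hy))
    exact mem_iUnion.2 ⟨i, hi⟩
  lc i j := lc_comp (h.lc i j) hg.continuousOn fun y hy => ⟨hy.1, hm hy.2⟩
  coc i j k y hi hj hk hy := h.coc i j k _ hi hj hk (hm hy)

theorem triv_comp {C : ι → Set X} {d : ι → ι → X → A} {S : Set X} (h : Triv C d S) {g : Y → X}
    {T : Set Y} (hg : ContinuousOn g T) (hm : MapsTo g T S) :
    Triv (fun i => g ⁻¹' C i) (fun i j y => d i j (g y)) T := by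
  obtain ⟨χ, h1, h2⟩ := h
  exact ⟨fun i y => χ i (g y), fun i => lc_comp (h1 i) (hg.mono inter_subset_right)
    fun y hy => ⟨hy.1, hm hy.2⟩, fun i j y hi hj hy => h2 i j _ hi hj (hm hy)⟩

/-- push forward along a section -/
theorem triv_of_section {C : ι → Set X} {d : ι → ι → X → A} {g : Y → X} {T : Set Y}
    (h : Triv (fun i => g ⁻¹' C i) (fun i j y => d i j (g y)) T) {s : X → Y} {S : Set X}
    (hs : ContinuousOn s S) (hm : MapsTo s S T) (e : ∀ x ∈ S, g (s x) = x) : Triv C d S := by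
  obtain ⟨χ, h1, h2⟩ := h
  refine ⟨fun i x => χ i (s x), fun i => lc_comp (h1 i) (hs.mono inter_subset_right)
    fun x hx => ⟨by rw [mem_preimage, e x hx.2]; exact hx.1, hm hx.2⟩, fun i j x hi hj hx => ?_⟩
  have := h2 i j (s x) (by rw [mem_preimage, e x hx]; exact hi)
    (by rw [mem_preimage, e x hx]; exact hj) (hm hx)
  simpa [e x hx] using this

end Reindex

variable {E : Type*} [NormedAddCommGroup E] [NormedSpace ℝ E]
  {S dS : Set E} {I : Type*} [PartialOrder I] {dim : I → ℕ} {K : I → Set E}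

theorem exists_vertex (C : Cplx S I dim K) (i : I) : ∃ v, dim v = 0 ∧ v ≤ i := by
  induction hd : dim i using Nat.strong_induction_on generalizing i with
  | _ n ih =>
    by_cases h0 : dim i = 0
    · exact ⟨i, h0, le_rfl⟩
    · obtain ⟨a, ha⟩ := C.isBall i
      have : Nonempty (Fin (dim i)) := ⟨⟨0, by omega⟩⟩
      have m1 : (fun _ => 1 : Fin (dim i) → ℝ) ∈ sph (dim i) := by simp [sph, pi_norm_const]
      have : a.f (fun _ => 1) ∈ ⋃ j ∈ {j | j < i}, K j := ha ▸ ⟨_, m1, rfl⟩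
      obtain ⟨j, hj, -⟩ := mem_iUnion₂.1 this
      obtain ⟨v, hv, hvj⟩ := ih _ (hd ▸ C.mono _ _ hj) j rfl
      exact ⟨v, hv, hvj.trans (le_of_lt hj)⟩

/-- `ψ` is constant on the vertices of `i` -/
def Cst {A : Type*} (dim : I → ℕ) (ψ : I → A) (i : I) : Prop :=
  ∀ v w, dim v = 0 → dim w = 0 → v ≤ i → w ≤ i → ψ v = ψ w

theorem cst_union [Finite I] (C : Cplx S I dim K) {A : Type*} {ψ : I → A} {J : Set I}
    (hc : IsPreconnected (⋃ i ∈ J, K i)) (h : ∀ i ∈ J, Cst dim ψ i) {i j v w : I} (hi : i ∈ J)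
    (hj : j ∈ J) (hv : dim v = 0) (hw : dim w = 0) (vi : v ≤ i) (wj : w ≤ j) : ψ v = ψ w := by
  by_contra hn
  let P : I → Prop := fun g => ∀ u, dim u = 0 → u ≤ g → ψ u = ψ v
  obtain ⟨y, -, hA, hB⟩ := isPreconnected_closed_iff.1 hc
    (⋃ g ∈ {g | g ∈ J ∧ P g}, K g) (⋃ g ∈ {g | g ∈ J ∧ ¬ P g}, K g)
    ((toFinite _).isClosed_biUnion fun i _ => C.isClosed i)
    ((toFinite _).isClosed_biUnion fun i _ => C.isClosed i)
    (fun y hy => by
      obtain ⟨g, hg, hyg⟩ := mem_iUnion₂.1 hy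
      by_cases cg : P g
      · exact Or.inl (mem_biUnion (show g ∈ {g | g ∈ J ∧ P g} from ⟨hg, cg⟩) hyg)
      · exact Or.inr (mem_biUnion (show g ∈ {g | g ∈ J ∧ ¬ P g} from ⟨hg, cg⟩) hyg))
    ((C.isBall i).nonempty.mono (subset_inter (subset_biUnion_of_mem hi)
      (subset_biUnion_of_mem (u := K) (show i ∈ {g | g ∈ J ∧ P g} from
        ⟨hi, fun u hu ui => h i hi u v hu hv ui vi⟩))))
    ((C.isBall j).nonempty.mono (subset_inter (subset_biUnion_of_mem hj)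
      (subset_biUnion_of_mem (u := K) (show j ∈ {g | g ∈ J ∧ ¬ P g} from
        ⟨hj, fun a => hn (a w hw wj).symm⟩))))
  obtain ⟨g, ⟨-, pg⟩, hg⟩ := mem_iUnion₂.1 hA
  obtain ⟨g', ⟨jg', pg'⟩, hg'⟩ := mem_iUnion₂.1 hB
  obtain ⟨m, m1, m2, -⟩ := C.mem_inter hg hg'
  obtain ⟨u, hu, um⟩ := exists_vertex C m
  exact pg' fun u' hu' a => (h g' jg' u' u hu' hu a (um.trans m2)).trans (pg u hu (um.trans m1))

theorem SC.cst [Finite I] (h : SC S dS I dim K) {A : Type*} {ψ : I → A} {i : I}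
    (he : ∀ e, dim e = 1 → e ≤ i → Cst dim ψ e) : Cst dim ψ i := by
  intro v w hv hw vi wi
  have h2 := h.le2 i
  by_cases d0 : dim i = 0
  · rw [eq_of_le h.cx vi (by omega), eq_of_le h.cx wi (by omega)]
  by_cases d1 : dim i = 1
  · exact he i d1 le_rfl v w hv hw vi wi
  have d2 : dim i = 2 := by omega
  have ec := ec_face h.cx d2
  have hU : ⋃ g ∈ {g | dim g = 1 ∧ g < i}, K g = ⋃ j ∈ {j | j < i}, K j := by
    refine Subset.antisymm (biUnion_subset_biUnion_left fun g hg => hg.2) fun x hx => ?_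
    obtain ⟨e, de, s, hxe⟩ := ec.cov x hx
    exact mem_biUnion (show e ∈ {g | dim g = 1 ∧ g < i} from ⟨de, (sub_face_iff h.cx).1 s⟩) hxe
  have up : ∀ u, dim u = 0 → u ≤ i → ∃ e, (dim e = 1 ∧ e < i) ∧ u ≤ e := by
    intro u hu ui
    obtain ⟨a, b, -, hab⟩ := ec.two_edges h.cx hu
      ((sub_face_iff h.cx).2 (lt_of_le h.cx.mono ui (by omega)))
    obtain ⟨d, h1, h3⟩ := (hab a).2 (Or.inl rfl)
    exact ⟨a, ⟨d, (sub_face_iff h.cx).1 h3⟩, h1.le⟩
  obtain ⟨a, ha, va⟩ := up v hv vi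
  obtain ⟨b, hb, wb⟩ := up w hw wi
  exact cst_union h.cx (J := {g | dim g = 1 ∧ g < i}) (hU ▸ ec.circ.isPreconnected)
    (fun g hg => he g hg.1 hg.2.le) ha hb hv hw va wb

theorem zadd (a : ZMod 2) : a + a = 0 := by revert a; decide

theorem zsub (a b : ZMod 2) : a - b = a + b := by revert a b; decide

theorem zcases (a : ZMod 2) : a = 0 ∨ a = 1 := by revert a; decide

theorem zeq {a b : ZMod 2} (h : a + b = 0) : a = b := by revert a b; decide

theorem inc_vertex (C : Cplx S I dim K) {e : I} (he : dim e = 1) (g : I) :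
    (g < e → inc dim g e = 1) ∧ (¬ g < e → inc dim g e = 0) :=
  ⟨fun hg => by
    have := C.mono _ _ hg
    have : dim g = 0 := by omega
    simp [inc, hg, he, this], fun hg => by simp [inc, hg]⟩

open Classical in
/-- a vertex of the carrier -/
noncomputable def vx (dim : I → ℕ) (K : I → Set E) (i : I) (x : E) : I :=
  if h : ∃ v, dim v = 0 ∧ ∃ m, Opn K m x ∧ v ≤ m then h.choose else i

theorem vx_spec (C : Cplx S I dim K) (i : I) {m : I} {x : E} (hm : Opn K m x) :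
    dim (vx dim K i x) = 0 ∧ vx dim K i x ≤ m ∧ ∀ j, vx dim K j x = vx dim K i x := by
  obtain ⟨v, hv, hvm⟩ := exists_vertex C m
  have h : ∃ v, dim v = 0 ∧ ∃ m, Opn K m x ∧ v ≤ m := ⟨v, hv, m, hm, hvm⟩
  simp only [vx, dif_pos h]
  obtain ⟨h1, m', h2, h3⟩ := h.choose_spec
  exact ⟨h1, C.disj _ _ _ h2 hm ▸ h3, fun _ => trivial⟩

/-- the locally constant cocycle of a family of potentials -/
noncomputable def dd (dim : I → ℕ) (K : I → Set E) (φ : I → I → ZMod 2) (i j : I) (x : E) :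
    ZMod 2 := φ i (vx dim K i x) - φ j (vx dim K j x)

theorem SC.lc_vx [Finite I] (h : SC S dS I dim K) {ψ : I → ZMod 2} {T : Set E} (hT : T ⊆ S)
    (i : I) (hψ : ∀ m y, y ∈ T → Opn K m y → Cst dim ψ m) : LC (fun x => ψ (vx dim K i x)) T := by
  intro x hx
  obtain ⟨O, hO, hxO, hnear⟩ := exists_near h.cx x
  obtain ⟨m, hm⟩ := exists_carrier h.cx (hT hx)
  filter_upwards [mem_nhdsWithin_of_mem_nhds (hO.mem_nhds hxO), self_mem_nhdsWithin] with y hyO hy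
  obtain ⟨m', hm'⟩ := exists_carrier h.cx (hT hy)
  obtain ⟨a1, a2, -⟩ := vx_spec h.cx i hm
  obtain ⟨b1, b2, -⟩ := vx_spec h.cx i hm'
  exact hψ m' y hy hm' _ _ b1 a1 b2 (a2.trans (h.cx.opn_le hm (hnear m' y hyO hm'.1)))

theorem sub_all (C : Cplx S I dim K) : Sub K S := fun i _ _ _ => C.sub i

variable [Fintype I]

/-- coboundary of a vertex function -/
noncomputable def cob (dim : I → ℕ) (ψ : I → ZMod 2) (e : I) : ZMod 2 := ∑ v, inc dim v e * ψ v

theorem cob_eq (C : Cplx S I dim K) {e v w : I} (he : dim e = 1) (hv : v < e) (hw : w < e)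
    (hne : v ≠ w) (ψ : I → ZMod 2) : cob dim ψ e = ψ v + ψ w := by
  obtain ⟨a, b, -, hab⟩ := two_vertices C he
  rw [cob, sum_two hne, (inc_vertex C he v).1 hv, (inc_vertex C he w).1 hw, one_mul, one_mul]
  intro g h1 h2
  rw [(inc_vertex C he g).2, zero_mul]
  intro hg
  rcases (hab g).1 hg with rfl | rfl <;> rcases (hab v).1 hv with rfl | rfl <;>
    rcases (hab w).1 hw with rfl | rfl <;> contradiction

theorem cst_of_cob (C : Cplx S I dim K) {e : I} (he : dim e = 1) {φ ψ : I → ZMod 2}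
    (h : cob dim φ e = cob dim ψ e) : Cst dim (fun v => φ v - ψ v) e := by
  intro v w hv hw ve we
  by_cases hne : v = w
  · rw [hne]
  · have l1 := lt_of_le C.mono ve (by omega)
    have l2 := lt_of_le C.mono we (by omega)
    rw [cob_eq C he l1 l2 hne, cob_eq C he l1 l2 hne] at h
    refine zeq ?_
    simp only [zsub]
    calc φ v + ψ v + (φ w + ψ w) = φ v + φ w + (ψ v + ψ w) := by ring
      _ = 0 := by rw [h, zadd]

/-- `κ` is exact on the edges in `T` -/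
def Ex (dim : I → ℕ) (K : I → Set E) (κ : I → ZMod 2) (T : Set E) : Prop :=
  ∃ ψ, ∀ e, dim e = 1 → K e ⊆ T → κ e = cob dim ψ e

/-- `κ` is a cocycle -/
def Cl (dim : I → ℕ) (κ : I → ZMod 2) : Prop := ∀ f, dim f = 2 → ∑ e, inc dim e f * κ e = 0

/-- cycles on an edge circle -/
theorem EC.cycle (C : Cplx S I dim K) {Γ : Set E} (hΓ : EC dim K Γ) {z : I → ZMod 2}
    (hs : ∀ e, ¬ (dim e = 1 ∧ K e ⊆ Γ) → z e = 0) (hz : ∀ v, ∑ e, z e * inc dim v e = 0) :
    (∀ e, z e = 0) ∨ ∀ e, dim e = 1 → K e ⊆ Γ → z e = 1 := by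
  by_cases h0 : ∀ e, z e = 0
  · exact Or.inl h0
  push Not at h0
  obtain ⟨e₀, h₀⟩ := h0
  have d₀ : dim e₀ = 1 ∧ K e₀ ⊆ Γ := by by_contra a; exact h₀ (hs _ a)
  refine Or.inr fun e de se => hΓ.minimal C (Z := fun e => z e = 1) (fun e _ a => ?_)
    (fun v e hv he hve a => ?_) d₀.1 ((zcases _).resolve_left h₀) de se
  · by_contra b; rw [hs e fun c => b c.2] at a; exact zero_ne_one a
  · by_contra hn
    push Not at hn
    have h1 := hz v
    rw [Finset.sum_eq_single e, a, (inc_vertex C he v).1 hve] at h1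
    · simp at h1
    · intro e' _ hne
      rcases zcases (z e') with b | b
      · rw [b, zero_mul]
      · have d' : dim e' = 1 := by
          by_contra c; rw [hs e' fun x => c x.1] at b; exact zero_ne_one b
        rw [(inc_vertex C d' v).2 fun c => hne (hn e' d' c b), mul_zero]
    · simp

/-- exactness on an edge circle -/
theorem EC.ex (C : Cplx S I dim K) {Γ : Set E} (hΓ : EC dim K Γ) {κ : I → ZMod 2}
    (h : ∑ e, ind {e | dim e = 1 ∧ K e ⊆ Γ} e * κ e = 0) : Ex dim K κ Γ := by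
  obtain ⟨ψ, hψ⟩ := exact_of_kills (fun e v => inc dim v e) (fun e => dim e = 1 ∧ K e ⊆ Γ) κ
    fun z hs hz => by
      rcases hΓ.cycle C hs hz with a | a
      · simp [a]
      · rw [← h]
        refine Finset.sum_congr rfl fun e _ => ?_
        by_cases b : dim e = 1 ∧ K e ⊆ Γ
        · simp [ind, b, a e b.1 b.2]
        · rw [hs e b]; simp only [ind, mem_ofPred_eq, b, if_false]
  exact ⟨ψ, fun e de se => hψ e ⟨de, se⟩⟩

theorem SC.ex_cell (h : SC S dS I dim K) {κ : I → ZMod 2} (hκ : Cl dim κ) (i : I) :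
    ∃ φ, ∀ e, dim e = 1 → e ≤ i → κ e = cob dim φ e := by
  obtain ⟨f, hf, hif⟩ := h.pure i
  obtain ⟨φ, hφ⟩ := (ec_face h.cx hf).ex h.cx (κ := κ) (by
    rw [← hκ f hf]
    refine Finset.sum_congr rfl fun e _ => ?_
    congr 1
    have h1 : K e ⊆ ⋃ j ∈ {j | j < f}, K j ↔ e < f := sub_face_iff h.cx
    have h2 : (2 = dim e + 1) ↔ dim e = 1 := by omega
    have h3 : e ∈ {e | dim e = 1 ∧ K e ⊆ ⋃ j ∈ {j | j < f}, K j} ↔ e < f ∧ dim f = dim e + 1 := by
      rw [hf, h2, ← h1]; exact and_comm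
    unfold ind inc
    by_cases h4 : e < f ∧ dim f = dim e + 1
    · rw [if_pos h4, if_pos (h3.2 h4)]
    · rw [if_neg h4, if_neg (mt h3.1 h4)])
  exact ⟨φ, fun e de he => hφ e de
    ((sub_face_iff h.cx).2 (lt_of_le h.cx.mono (he.trans hif) (by omega)))⟩

/-- potentials on all cells -/
def Pot (dim : I → ℕ) (κ : I → ZMod 2) (φ : I → I → ZMod 2) : Prop :=
  ∀ i e, dim e = 1 → e ≤ i → κ e = cob dim (φ i) e

theorem SC.exists_pot (h : SC S dS I dim K) {κ : I → ZMod 2} (hκ : Cl dim κ) :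
    ∃ φ, Pot dim κ φ := by
  choose φ hφ using h.ex_cell hκ
  exact ⟨φ, hφ⟩

theorem SC.coc (h : SC S dS I dim K) {κ : I → ZMod 2} {φ : I → I → ZMod 2} (hφ : Pot dim κ φ) :
    Coc K (dd dim K φ) S where
  closed := h.cx.isClosed
  cov x hx := mem_iUnion.2 (h.cx.cover x hx)
  lc i j := by
    refine (h.lc_vx (ψ := fun v => φ i v - φ j v) inter_subset_right i
      fun m y hy hm => h.cst fun e de em => cst_of_cob h.cx de ?_).congr fun x hx => ?_
    · rw [← hφ i e de (em.trans (h.cx.opn_le hm hy.1.1)),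
        ← hφ j e de (em.trans (h.cx.opn_le hm hy.1.2))]
    · obtain ⟨m, hm⟩ := exists_carrier h.cx hx.2
      rw [dd, (vx_spec h.cx i hm).2.2 j]
  coc i j k x _ _ _ _ := by simp [dd]

theorem SC.triv_iff (h : SC S dS I dim K) {κ : I → ZMod 2} {φ : I → I → ZMod 2}
    (hφ : Pot dim κ φ) {T : Set E} (hT : T ⊆ S) (hs : Sub K T) :
    Triv K (dd dim K φ) T ↔ Ex dim K κ T := by
  have C := h.cx
  constructor
  · rintro ⟨χ, h1, h2⟩
    choose p hp using fun i => (C.isBall i).nonempty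
    refine ⟨fun v => φ v v - χ v (p v), fun e de se => ?_⟩
    obtain ⟨v, w, hne, hvw⟩ := two_vertices C de
    have lv := (hvw v).2 (Or.inl rfl)
    have lw := (hvw w).2 (Or.inr rfl)
    have key : ∀ u, u < e → φ u u - χ u (p u) = φ e u - χ e (p v) := by
      intro u hu
      have du : dim u = 0 := by have := C.mono _ _ hu; omega
      have hpe := C.subset hu.le (hp u)
      have a := h2 u e (p u) (hp u) hpe (se hpe)
      obtain ⟨b1, b2, b3⟩ := vx_spec C u (opn_vertex C du (hp u))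
      rw [dd, b3 e, eq_of_le C b2 (by omega)] at a
      have b : χ e (p u) = χ e (p v) := (h1 e).eq_of_preconnected
        (by rw [inter_eq_left.2 se]; exact (C.isBall e).isPreconnected) ⟨hpe, se hpe⟩
        ⟨C.subset lv.le (hp v), se (C.subset lv.le (hp v))⟩
      rw [← b]
      linear_combination -a
    rw [hφ e e de le_rfl, cob_eq C de lv lw hne, cob_eq C de lv lw hne, key v lv, key w lw]
    linear_combination zadd (χ e (p v))
  · rintro ⟨ψ, hψ⟩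
    refine ⟨fun i x => φ i (vx dim K i x) - ψ (vx dim K i x), fun i => ?_,
      fun i j x _ _ hx => ?_⟩
    · refine h.lc_vx (ψ := fun v => φ i v - ψ v) (inter_subset_right.trans hT) i
        fun m y hy hm => h.cst fun e de em => cst_of_cob C de ?_
      rw [← hφ i e de (em.trans (C.opn_le hm hy.1)),
        ← hψ e de ((C.subset em).trans (hs m y hm hy.2))]
    · obtain ⟨m, hm⟩ := exists_carrier C (hT hx)
      beta_reduce
      rw [dd, (vx_spec C i hm).2.2 j]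
      ring

theorem EC.is_cycle (C : Cplx S I dim K) {Γ : Set E} (hΓ : EC dim K Γ) (v : I) :
    ∑ e, ind {e | dim e = 1 ∧ K e ⊆ Γ} e * inc dim v e = 0 := by
  by_cases h0 : dim v = 0 ∧ K v ⊆ Γ
  · obtain ⟨a, b, hne, hab⟩ := hΓ.two_edges C h0.1 h0.2
    have one : ∀ g, g = a ∨ g = b → ind {e | dim e = 1 ∧ K e ⊆ Γ} g * inc dim v g = 1 :=
      fun g hg => by
        obtain ⟨d, h1, h2⟩ := (hab g).2 hg
        simp [ind, (inc_vertex C d v).1 h1, d, h2]
    rw [sum_two hne, one a (Or.inl rfl), one b (Or.inr rfl)]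
    · rfl
    · intro g ha hb
      by_cases h1 : dim g = 1 ∧ K g ⊆ Γ
      · rw [(inc_vertex C h1.1 v).2 fun h2 => ((hab g).1 ⟨h1.1, h2, h1.2⟩).elim ha hb, mul_zero]
      · simp only [ind, mem_ofPred_eq, h1, if_false, zero_mul]
  · refine Finset.sum_eq_zero fun g _ => ?_
    by_cases h1 : dim g = 1 ∧ K g ⊆ Γ
    · rw [(inc_vertex C h1.1 v).2 fun h2 => h0 ⟨by have := C.mono _ _ h2; omega,
        (C.subset h2.le).trans h1.2⟩, mul_zero]
    · simp only [ind, mem_ofPred_eq, h1, if_false, zero_mul]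

/-- an edge circle bounds, or is detected by a cocycle -/
theorem SC.bounds_or (h : SC S dS I dim K) {Γ : Set E} :
    (∃ Y ⊆ {f | dim f = 2}, Bds dim K Y Γ) ∨
      ∃ κ, Cl dim κ ∧ ∑ e, ind {e | dim e = 1 ∧ K e ⊆ Γ} e * κ e ≠ 0 := by
  classical
  let W : Submodule (ZMod 2) (I → ZMod 2) :=
    Submodule.span (ZMod 2) ((fun f e => inc dim e f) '' {f | dim f = 2})
  by_cases hz : ind {e | dim e = 1 ∧ K e ⊆ Γ} ∈ W
  · left
    obtain ⟨w, hw, e⟩ := (Finsupp.mem_span_image_iff_linearCombination _).1 hz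
    refine ⟨{f | w f = 1}, fun f hf => hw (Finsupp.mem_support_iff.2 (by
      rw [show w f = 1 from hf]; exact one_ne_zero)), fun g dg => ?_⟩
    have h1 := congrFun e g
    rw [Finsupp.linearCombination_apply, Finsupp.sum_fintype _ _ (by simp), Finset.sum_apply] at h1
    have h2 := h.sum_ind dg {f | w f = 1}
    have h3 : ∀ f, ind {f | w f = 1} f = w f := fun f => by
      rcases zcases (w f) with a | a <;> simp [ind, a]
    simp only [h3] at h2
    simp only [Pi.smul_apply, smul_eq_mul, mul_comm] at h1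
    rw [h2] at h1
    simp only [ind, mem_ofPred_eq, dg, true_and] at h1
    by_cases a : bdE {f | w f = 1} g <;> by_cases b : K g ⊆ Γ <;> simp [a, b] at h1 ⊢
  · right
    obtain ⟨κ, h1, h2⟩ := exists_separating W hz
    exact ⟨κ, fun f hf => by
      simpa only [mul_comm] using h1 _ (Submodule.subset_span ⟨f, hf, rfl⟩),
      by simpa only [mul_comm] using h2⟩

theorem EC.sum_ex (C : Cplx S I dim K) {Γ : Set E} (hΓ : EC dim K Γ) {κ : I → ZMod 2}
    (h : Ex dim K κ Γ) : ∑ e, ind {e | dim e = 1 ∧ K e ⊆ Γ} e * κ e = 0 := by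
  obtain ⟨ψ, hψ⟩ := h
  have h1 : ∀ e, ind {e | dim e = 1 ∧ K e ⊆ Γ} e * κ e =
      ind {e | dim e = 1 ∧ K e ⊆ Γ} e * ∑ v, inc dim v e * ψ v := fun e => by
    by_cases a : dim e = 1 ∧ K e ⊆ Γ
    · rw [hψ e a.1 a.2]; rfl
    · simp only [ind, mem_ofPred_eq, a, if_false, zero_mul]
  simp only [h1]
  rw [sum_mul_cob (fun e v => inc dim v e)]
  simp only [hΓ.is_cycle C, zero_mul, Finset.sum_const_zero]

omit [NormedAddCommGroup E] [NormedSpace ℝ E] in
theorem Ex.mono {κ : I → ZMod 2} {T T' : Set E} (h : Ex dim K κ T) (hT : T' ⊆ T) :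
    Ex dim K κ T' := h.imp fun _ hψ e de se => hψ e de (se.trans hT)

/-- if all edge cocycles are exact then all edge circles bound -/
theorem SC.bounds (h : SC S dS I dim K) (h1 : ∀ κ, Cl dim κ → Ex dim K κ S) {Γ : Set E}
    (hΓ : EC dim K Γ) (hs : Γ ⊆ S) : ∃ Y ⊆ {f | dim f = 2}, Bds dim K Y Γ :=
  h.bounds_or.resolve_right fun ⟨κ, a, b⟩ => b (hΓ.sum_ex h.cx ((h1 κ a).mono hs))

theorem SC.ex_of_H1 (h : SC S dS I dim K) (h1 : H1 S) (κ : I → ZMod 2) (hκ : Cl dim κ) :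
    Ex dim K κ S := by
  obtain ⟨φ, hφ⟩ := h.exists_pot hκ
  exact (h.triv_iff hφ Subset.rfl (sub_all h.cx)).1 (h1.triv (h.coc hφ))

end Crest.Agent.X212.Srf12
end

-- ▼ part X212/Srf12/Rec

/-!
# X212 / SURF (helper12): recognition of spheres and discs
-/

set_option autoImplicit false

open Set Metric Topology Module

namespace Crest.Agent.X212.Srf12

open Crest.Agent.R096 Crest.Agent.R096.Ce_537 Crest.Agent.R096.Cb_609 Crest.Agent.R096.Coh_184

variable {E : Type*} [NormedAddCommGroup E] [NormedSpace ℝ E]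
  {S dS : Set E} {I : Type*} [PartialOrder I] {dim : I → ℕ} {K : I → Set E}

theorem isClosed_car [Finite I] (C : Cplx S I dim K) (X : Set I) : IsClosed (car K X) :=
  (toFinite _).isClosed_biUnion fun i _ => C.isClosed i

theorem car_subset (C : Cplx S I dim K) (X : Set I) : car K X ⊆ S :=
  iUnion₂_subset fun i _ => C.sub i

theorem SC.exists_face (h : SC S dS I dim K) {x : E} (hx : x ∈ S) : ∃ f, dim f = 2 ∧ x ∈ K f := by
  obtain ⟨i, hi⟩ := h.cx.cover x hx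
  obtain ⟨f, hf, hif⟩ := h.pure i
  exact ⟨f, hf, h.cx.subset hif hi⟩

theorem SC.car_all (h : SC S dS I dim K) : car K {f | dim f = 2} = S :=
  (car_subset h.cx _).antisymm fun _ hx =>
    let ⟨f, hf, hxf⟩ := h.exists_face hx
    mem_biUnion (show f ∈ {f | dim f = 2} from hf) hxf

/-- a set of faces without boundary is empty or everything -/
theorem SC.all_or_none [Finite I] (h : SC S dS I dim K) (hc : IsPreconnected S) {X : Set I}
    (hX : ∀ e, dim e = 1 → ¬ bdE X e) {f f' : I} (d : dim f = 2) (d' : dim f' = 2) (hf : f ∈ X) :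
    f' ∈ X := by
  by_contra hn
  obtain ⟨y, -, hA, hB⟩ := isPreconnected_closed_iff.1 hc
    (car K {g | dim g = 2 ∧ g ∈ X}) (car K {g | dim g = 2 ∧ g ∉ X})
    (isClosed_car h.cx _) (isClosed_car h.cx _)
    (fun y hy => by
      obtain ⟨g, hg, hyg⟩ := h.exists_face hy
      by_cases cg : g ∈ X
      · exact Or.inl (mem_biUnion (show g ∈ {g | dim g = 2 ∧ g ∈ X} from ⟨hg, cg⟩) hyg)
      · exact Or.inr (mem_biUnion (show g ∈ {g | dim g = 2 ∧ g ∉ X} from ⟨hg, cg⟩) hyg))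
    ((h.cx.isBall f).nonempty.mono (subset_inter (h.cx.sub f)
      (subset_biUnion_of_mem (u := K) (show f ∈ {g | dim g = 2 ∧ g ∈ X} from ⟨d, hf⟩))))
    ((h.cx.isBall f').nonempty.mono (subset_inter (h.cx.sub f')
      (subset_biUnion_of_mem (u := K) (show f' ∈ {g | dim g = 2 ∧ g ∉ X} from ⟨d', hn⟩))))
  obtain ⟨g, ⟨dg, pg⟩, hg⟩ := mem_iUnion₂.1 hA
  obtain ⟨g', ⟨dg', pg'⟩, hg'⟩ := mem_iUnion₂.1 hB
  exact h.mem_bd (Γ := ∅) (fun e he => ⟨fun a => absurd a (hX e he), fun a =>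
    absurd ((h.cx.isBall e).nonempty.mono a) not_nonempty_empty⟩) dg dg' pg pg' hg hg'

/-- all faces are bounded by the boundary -/
theorem SC.bds_all (h : SC S dS I dim K) : Bds dim K {f | dim f = 2} dS := by
  intro e he
  constructor
  · rintro ⟨f, -, hf, hu⟩ x hx
    exact (h.bd x).2 ⟨e, f, he, hx, hf, fun f' hf' => hu f' (h.dim_face he hf') hf'⟩
  · intro hs
    obtain ⟨x, hx⟩ := exists_opn_pt h.cx e
    obtain ⟨e', f, he', hxe, hf, hu⟩ := (h.bd x).1 (hs hx.1)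
    obtain rfl := eq_of_le h.cx (h.cx.opn_le hx hxe) (by omega)
    exact ⟨f, h.dim_face he hf, hf, fun g _ hg => hu g hg⟩

theorem SC.bd_cov (h : SC S dS I dim K) {x : E} (hx : x ∈ dS) :
    ∃ e, dim e = 1 ∧ K e ⊆ dS ∧ x ∈ K e := by
  obtain ⟨e, f, he, hxe, hf, hu⟩ := (h.bd x).1 hx
  exact ⟨e, he, fun y hy => (h.bd y).2 ⟨e, f, he, hy, hf, hu⟩, hxe⟩

theorem bds_face (C : Cplx S I dim K) (f : I) : Bds dim K {f} (⋃ j ∈ {j | j < f}, K j) := by
  intro e _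
  rw [sub_face_iff C]
  exact ⟨fun ⟨g, hg, h1, _⟩ => hg ▸ h1, fun h1 => ⟨f, rfl, h1, fun _ hg _ => hg⟩⟩

/-- the complementary set of faces of a closed surface -/
theorem SC.bds_compl (h : SC S ∅ I dim K) {Y : Set I} {Γ : Set E} (hY : Bds dim K Y Γ) :
    Bds dim K (symmDiff Y {f | dim f = 2}) Γ := by
  intro e he
  have : ¬ K e ⊆ ∅ := fun a => absurd ((h.cx.isBall e).nonempty.mono a) not_nonempty_empty
  rw [h.bdE_symmDiff he, h.bds_all e he, hY e he]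
  tauto

variable [FiniteDimensional ℝ E]

/-- a closed connected surface on which every edge circle bounds is a sphere -/
theorem SC.sph [Finite I] (h : SC S ∅ I dim K) (hc : IsConnected S)
    (hb : ∀ Γ, EC dim K Γ → Γ ⊆ S → ∃ Y ⊆ {f | dim f = 2}, Bds dim K Y Γ) : Sph S := by
  obtain ⟨x, hx⟩ := hc.nonempty
  obtain ⟨f₀, d₀, -⟩ := h.exists_face hx
  have hU : symmDiff {f₀} {f | dim f = 2} = {f | dim f = 2 ∧ f ≠ f₀} := by
    ext f
    simp only [mem_symmDiff, mem_singleton_iff, mem_ofPred_eq]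
    constructor
    · rintro (⟨rfl, a⟩ | a)
      exacts [absurd d₀ a, a]
    · exact Or.inr
  have hB := h.bds_compl (bds_face h.cx f₀)
  rw [hU] at hB
  have hD := h.disc (U := {f | dim f = 2 ∧ f ≠ f₀}) (fun _ hf => hf.1)
    (fun X hX hn => eq_empty_of_forall_notMem fun f hf =>
      (hX (h.all_or_none hc.isPreconnected hn (hX hf).1 d₀ hf)).2 rfl)
    (fun Γ hΓ hs => by
      obtain ⟨Y, hY, hYb⟩ := hb Γ hΓ (hs.trans (car_subset h.cx _))
      by_cases a : f₀ ∈ Y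
      · refine ⟨_, fun f hf => ?_, h.bds_compl hYb⟩
        rcases hf with ⟨b, c⟩ | ⟨b, c⟩
        · exact absurd (hY b) c
        · exact ⟨b, fun e => c (e ▸ a)⟩
      · exact ⟨Y, fun f hf => ⟨hY hf, fun e => a (e ▸ hf)⟩, hYb⟩)
    Subset.rfl (ec_face h.cx d₀) hB
  have hu : K f₀ ∪ car K {f | dim f = 2 ∧ f ≠ f₀} = S := by
    refine (union_subset (h.cx.sub _) (car_subset h.cx _)).antisymm fun y hy => ?_
    obtain ⟨f, hf, hyf⟩ := h.exists_face hy
    by_cases a : f = f₀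
    · exact Or.inl (a ▸ hyf)
    · exact Or.inr (mem_biUnion (show f ∈ {f | dim f = 2 ∧ f ≠ f₀} from ⟨hf, a⟩) hyf)
  have := Glu_422.sphere_union (face_ball h.cx d₀) hD (Subset.antisymm (fun y hy => by
    obtain ⟨f, hf, hyf⟩ := mem_iUnion₂.1 hy.2
    exact h.mem_bd hB hf.1 d₀ hf (fun a => a.2 rfl) hyf hy.1)
    (subset_inter (face_ball h.cx d₀).subset hD.subset))
  rwa [hu] at this

omit [FiniteDimensional ℝ E] in
theorem SC.ec_bd (h : SC S dS I dim K) (hΓ : Circ dS) : EC dim K dS := ⟨hΓ, fun _ => h.bd_cov⟩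

/-- a connected surface bounded by one circle on which every edge circle bounds is a disc -/
theorem SC.ball [Finite I] (h : SC S dS I dim K) (hc : IsPreconnected S) (hΓ : Circ dS)
    (hb : ∀ Γ, EC dim K Γ → Γ ⊆ S → ∃ Y ⊆ {f | dim f = 2}, Bds dim K Y Γ) : IsBall 2 S dS := by
  have := h.disc (U := {f | dim f = 2}) (fun _ hf => hf)
    (fun X hX hn => eq_empty_of_forall_notMem fun f hf => by
      obtain ⟨x, hx⟩ := hΓ.nonempty
      obtain ⟨e, he, hs, -⟩ := h.bd_cov hx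
      have : X = {f | dim f = 2} := hX.antisymm fun g hg => h.all_or_none hc hn (hX hf) hg hf
      exact hn e he (this ▸ (h.bds_all e he).2 hs))
    (fun Γ hΓ hs => hb Γ hΓ (hs.trans (car_subset h.cx _))) Subset.rfl (h.ec_bd hΓ) h.bds_all
  rwa [h.car_all] at this

/-- **SPH** -/
theorem Srf.sph (h : Srf S ∅) (hc : IsConnected S) (h1 : H1 S) : Sph S := by
  obtain ⟨Q, _, _, C, -, hC, -⟩ := h.exists_sc finite_empty (fun _ a => a.elim)
  have := Fintype.ofFinite Q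
  exact hC.sph hc fun Γ => hC.bounds (hC.ex_of_H1 h1)

/-- **DISC** -/
theorem Srf.ball (h : Srf S dS) (hc : IsPreconnected S) (hΓ : Circ dS) (h1 : H1 S) :
    IsBall 2 S dS := by
  obtain ⟨Q, _, _, C, -, hC, -⟩ := h.exists_sc finite_empty (fun _ a => a.elim)
  have := Fintype.ofFinite Q
  exact hC.ball hc hΓ fun Γ => hC.bounds (hC.ex_of_H1 h1)

end Crest.Agent.X212.Srf12
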